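import Vale.Agent.P287.Odd.Spec

/-!
The main theorem over `k` from the three blocks.
-/

namespace Vale.Agent.P287.H597

open Polynomial Matrix Module Vale.Agent.P287.Odd

lemma not_all_dvd {k : Type} [Field k] {m : ℕ} {g f : k[X][X]}
    {A : Matrix (Fin 3) (Fin 3) k[X][X]} {x : Fin 3 → k} {ν : Fin 3 → k[X][X]} {dν : ℕ}
    (hC : Curve m g f) (hI : Iso m g A x ν dν) : ∃ i, ¬ g ∣ ν i := by
  by_contra hcon
  push Not at hcon
  obtain ⟨z, β, γ, hz⟩ := hI.line
  have h1 : g ∣ 1 - γ * C X := by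
    rw [← hz]
    have h2 : z ⬝ᵥ ν + β * g + γ * C X - γ * C X = z ⬝ᵥ ν + β * g := by ring
    rw [h2]
    refine dvd_add ?_ (dvd_mul_left _ _)
    exact Finset.dvd_sum fun i _ => (hcon i).mul_left _
  have h3 := map_dvd (mapRingHom (evalRingHom (0 : k))) h1
  rw [map_sub, map_one, map_mul, coe_mapRingHom, map_C, coe_evalRingHom, eval_X, C_0, mul_zero,
    sub_zero] at h3
  have h4 : (g.map (evalRingHom (0 : k))).Monic := hC.monic.map _
  have h5 : (g.map (evalRingHom (0 : k))).natDegree = 2 * m + 1 := by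
    rw [hC.monic.natDegree_map, hC.deg]
  have h6 := natDegree_eq_zero_of_isUnit (isUnit_of_dvd_one h3)
  omega

lemma smul_eq_zero_quot {R : Type} [CommRing R] {g : R} {A : Matrix (Fin 3) (Fin 3) R}
    {J : Ideal R} {L : Submodule R (Fin 4 → R)} {x : Fin 3 → R} (hg : g ∈ J)
    (n : Nq (modX A J) (L ⊔ modP g A J x)) : g • n = 0 := by
  obtain ⟨v, rfl⟩ := Submodule.Quotient.mk_surjective _ n
  rw [← Submodule.Quotient.mk_smul, Submodule.Quotient.mk_eq_zero, Submodule.mem_comap]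
  refine Submodule.mem_sup_right ⟨J.mul_mem_right _ hg, 0, fun i => ?_⟩
  rw [zero_smul, sub_zero]
  exact dvd_mul_right _ _

theorem stmtK (hN : StmtN) (hJ : StmtJ) (hO : StmtO) : StmtK := by
  intro k _ _ m hm g f A J x ν dν s₀ c₀ hC hH hQ hI hs₀ hc₀ hev
  obtain ⟨hfin, hodd⟩ := hN k m hm g f A J x ν dν hC hH hQ hI hev
  obtain ⟨S, T, hST, hSS, hTT⟩ := hJ k[X][X] g f A J (cx x) ν s₀ c₀ hC.prime hC.ndvd hQ.symm
    hQ.det hH.f_mem hH.g_mem hH.mul_mem hI.iso (not_all_dvd hC hI) hs₀ hc₀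
  exact hO k k[X][X] _ S T _ _ g hST hSS hTT (smul_eq_zero_quot hH.g_mem) hodd

end Vale.Agent.P287.H597
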