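import Vale.Agent.P287.Theta.Main
import Vale.Agent.P287.H69.PointK
import Vale.Agent.P287.H69.Verra
import Vale.Agent.P287.H684.Dim
import Vale.Agent.P287.H946.Base
import Vale.Agent.P287.H597.OddK

/-!
The odd theta theorem: assembly of the blocks.
-/

namespace Vale.Agent.P287.H597

open Polynomial Matrix Module Vale.Agent.P287 Vale.Agent.P287.Theta Vale.Agent.P287.Odd

/-- The dehomogenisation in new coordinates. -/
noncomputable def dT (T : Matrix (Fin 3) (Fin 3) ℂ) (P : R3) : ℂ[X][X] := dh (sb T P)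

/-- The same with coefficients in `RatK`. -/
noncomputable abbrev β : ℂ[X][X] →+* RatK[X][X] := H946.bc ℂ RatK

/-- [V] helper925: from the matrix of the quadric surface fibration to a matrix of conics. -/
def StmtV : Prop := ∀ (M : Matrix (Fin 4) (Fin 4) R3) (g : R3) (m : ℕ), FibShape M →
  SmoothTernary M.det → M.adjugate 0 0 ≠ 0 → 2 ≤ m → g.IsHomogeneous (2 * m + 1) →
  Irreducible g → ¬ g ∣ M.det → SquareMod M.det g →
  (∃ v : Fin 4 → RatK, v ≠ 0 ∧ v ⬝ᵥ (M.map (MvPolynomial.aeval tvec)) *ᵥ v = 0) ∨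
  ∃ (A : Matrix (Fin 3) (Fin 3) R3) (c c₁ : ℂ) (b : Fin 3 → R3) (l : RatK)
    (φ : (Fin 4 → RatK) ≃ₗ[RatK] (RatK × (Fin 3 → RatK))),
    c ≠ 0 ∧ A.IsSymm ∧ (∀ i j, (A i j).IsHomogeneous 2) ∧ A.det = MvPolynomial.C c * M.det ∧
    c₁ ≠ 0 ∧ (∀ i, (b i).IsHomogeneous (m + 4)) ∧
    (∀ i j, M.det ∣ b i * b j - MvPolynomial.C c₁ * (M.adjugate 0 0 * g * A.adjugate i j)) ∧
    (∃ i, ¬ M.det ∣ b i) ∧
    ∀ v, (φ v).1 ^ 2 - ∑ i, ∑ j, MvPolynomial.aeval tvec (A i j) * ((φ v).2 i * (φ v).2 j) =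
      l * (v ⬝ᵥ (M.map (MvPolynomial.aeval tvec)) *ᵥ v)

/-- [T] helper270: good coordinates and the isotropic vector. -/
def StmtT : Prop := ∀ (m : ℕ) (g f : R3) (A : Matrix (Fin 3) (Fin 3) R3) (c : ℂ), 1 ≤ m →
  f.IsHomogeneous 6 → Irreducible f → SmoothTernary f → g.IsHomogeneous (2 * m + 1) →
  Irreducible g → ¬ g ∣ f → A.IsSymm → (∀ i j, (A i j).IsHomogeneous 2) → c ≠ 0 →
  A.det = MvPolynomial.C c * f →
  ∃ (T S : Matrix (Fin 3) (Fin 3) ℂ) (v : ℂ) (ν : Fin 3 → ℂ[X][X]) (dν : ℕ), T * S = 1 ∧ v ≠ 0 ∧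
    Curve m (C (C v) * dh (sb T g)) (C (C (-c)) * dh (sb T f)) ∧
    Quadrics (C (C v) * dh (sb T g)) (C (C (-c)) * dh (sb T f)) (A.map fun P => dh (sb T P)) ∧
    Iso m (β (C (C v) * dh (sb T g))) ((A.map fun P => dh (sb T P)).map β) tvec (β ∘ ν) dν

/-- [J0] helper946: the ideal `J`. -/
def StmtJ0 : Prop := ∀ (m : ℕ) (g f : R3) (T S : Matrix (Fin 3) (Fin 3) ℂ) (v c : ℂ),
  T * S = 1 → v ≠ 0 → c ≠ 0 → 2 ≤ m → f.IsHomogeneous 6 → SmoothTernary f →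
  g.IsHomogeneous (2 * m + 1) → Irreducible g → ¬ g ∣ f → SquareMod f g →
  Curve m (C (C v) * dh (sb T g)) (C (C (-c)) * dh (sb T f)) →
  ∃ J : Ideal ℂ[X][X], (∀ a, a ∈ J ↔
      a ^ 2 ∈ Ideal.span {C (C (-c)) * dh (sb T f), C (C v) * dh (sb T g)}) ∧
    Half m (C (C v) * dh (sb T g)) (C (C (-c)) * dh (sb T f)) J

/-- The theta characteristic of `g` has an even number of sections. -/
def EvenSections (m : ℕ) (g f : R3) : Prop :=
  ∀ (H : H684.CurvePair f g (2 * m + 1)) (hk : 2 * m + 1 ≤ 2 * (m + 2)),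
    Even (finrank ℂ ((H.J (m + 2) hk).map (H684.modf f)))

/-- [D] helper621, helper908, helper684: the parity of the dimension over `ℂ`. -/
def StmtD : Prop := ∀ (M : Matrix (Fin 4) (Fin 4) R3) (g : R3) (m : ℕ)
  (A : Matrix (Fin 3) (Fin 3) R3) (c c₁ : ℂ) (b : Fin 3 → R3)
  (T S : Matrix (Fin 3) (Fin 3) ℂ) (v : ℂ) (J : Ideal ℂ[X][X]), FibShape M →
  SmoothTernary M.det → M.adjugate 0 0 ≠ 0 → 2 ≤ m → g.IsHomogeneous (2 * m + 1) →
  Irreducible g → ¬ g ∣ M.det → c ≠ 0 → A.IsSymm → (∀ i j, (A i j).IsHomogeneous 2) →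
  A.det = MvPolynomial.C c * M.det → c₁ ≠ 0 → (∀ i, (b i).IsHomogeneous (m + 4)) →
  (∀ i j, M.det ∣ b i * b j - MvPolynomial.C c₁ * (M.adjugate 0 0 * g * A.adjugate i j)) →
  (∃ i, ¬ M.det ∣ b i) → T * S = 1 → v ≠ 0 →
  Curve m (C (C v) * dh (sb T g)) (C (C (-c)) * dh (sb T M.det)) →
  Quadrics (C (C v) * dh (sb T g)) (C (C (-c)) * dh (sb T M.det))
    (A.map fun P => dh (sb T P)) →
  Half m (C (C v) * dh (sb T g)) (C (C (-c)) * dh (sb T M.det)) J →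
  (∀ a, a ∈ J ↔ a ^ 2 ∈ Ideal.span {C (C (-c)) * dh (sb T M.det), C (C v) * dh (sb T g)}) →
  EvenSections m g M.det →
  Even (finrank ℂ (Yd (2 * m + 1) (m - 1) (modX (A.map fun P => dh (sb T P)) J)))

/-- [BC] helper684: base change from `ℂ` to `RatK`. -/
structure StmtBC : Prop where
  prime : ∀ g : ℂ[X][X], Prime g → Prime (β g)
  curve : ∀ (m : ℕ) (g f : ℂ[X][X]), Curve m g f → Curve m (β g) (β f)
  half : ∀ (m : ℕ) (g f : ℂ[X][X]) (J : Ideal ℂ[X][X]), Half m g f J →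
    Half m (β g) (β f) (J.map β)
  quadrics : ∀ (g f : ℂ[X][X]) (A : Matrix (Fin 3) (Fin 3) ℂ[X][X]), Quadrics g f A →
    Quadrics (β g) (β f) (A.map β)
  finrank : ∀ (n d : ℕ) (A : Matrix (Fin 3) (Fin 3) ℂ[X][X]) (J : Ideal ℂ[X][X]),
    Module.finrank RatK (Yd n d (modX (A.map β) (J.map β))) =
      Module.finrank ℂ (Yd n d (modX A J))

end Vale.Agent.P287.H597
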