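import Vale.Agent.P287.H597.OddSkel
import Vale.Agent.P287.H684.BC2
import Vale.Agent.P287.H684.BC3
import Vale.Agent.P287.H946.J0
import Vale.Agent.P287.H621.D1Final

/-!
The odd theta theorem: the block statements which are already proved.
-/

namespace Vale.Agent.P287.H597

open Polynomial Matrix Module Vale.Agent.P287 Vale.Agent.P287.Theta Vale.Agent.P287.Odd

theorem stmtBC : StmtBC where
  prime := fun _ hg => H684.prime_bc hg
  curve := fun _ _ _ h => H684.curve_bc h (H684.prime_bc h.prime)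
  half := fun _ _ _ _ h => H684.half_bc h
  quadrics := fun _ _ _ h => H684.quadrics_bc h
  finrank := fun _ _ _ _ => H684.finrank_Yd_bc

lemma isUnit_CC' {a : ℂ} (ha : a ≠ 0) : IsUnit (C (C a) : ℂ[X][X]) :=
  (isUnit_C.2 (isUnit_C.2 (isUnit_iff_ne_zero.2 ha)))

lemma evalEval_CC_mul (x y a : ℂ) (p : ℂ[X][X]) :
    evalEval x y (C (C a) * p) = a * evalEval x y p := by
  simp [evalEval]

lemma mem_iff_of_unit {R : Type*} [CommRing R] {I : Ideal R} {u p : R} (hu : IsUnit u) :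
    u * p ∈ I ↔ p ∈ I := by
  constructor
  · intro h
    obtain ⟨w, hw⟩ := hu.exists_left_inv
    have := I.mul_mem_left w h
    rwa [← mul_assoc, hw, one_mul] at this
  · exact fun h => I.mul_mem_left u h

theorem stmtJ0 : StmtJ0 := by
  intro m g f T S v c hTS hv hc hm hf hs hg hgi hgf hsq hCu
  have hcn : (-c) ≠ 0 := neg_ne_zero.2 hc
  have hfT := sb_homog T hf
  have hsT := sb_smooth hTS hs
  have hfi := irreducible_of_smooth hf (by norm_num) hs
  have hfiT := sb_irreducible hTS hfi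
  obtain ⟨s, c₀, hgc, hd⟩ := (hsq.sb hTS).dh (sb_homog T hg) (by omega) (sb_irreducible hTS hgi)
  obtain ⟨r, hr⟩ := IsAlgClosed.exists_pow_nat_eq (-c) two_pos
  refine H946.exists_half hCu ?_ ?_ ?_
  · have h1 := prime_dh hfT (by norm_num) hfiT
    obtain ⟨u, hu⟩ := isUnit_CC' hcn
    rw [← hu]
    have h2 : Associated (dh (sb T f)) ((u : ℂ[X][X]) * dh (sb T f)) := ⟨u, mul_comm _ _⟩
    exact h2.prime h1
  · intro x y hxy
    rw [evalEval_CC_mul] at hxy
    have h1 := smooth_dh hfT hsT x y ((mul_eq_zero.1 hxy).resolve_left hcn)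
    rwa [mem_iff_of_unit (isUnit_CC' hcn)]
  · have hv' := isUnit_CC' hv
    refine ⟨C (C r) * s, c₀, ?_, ?_⟩
    · rwa [hv'.mul_left_dvd]
    · rw [hv'.mul_left_dvd]
      have h1 : c₀ ^ 2 * (C (C (-c)) * dh (sb T f)) - (C (C r) * s) ^ 2 =
          C (C (-c)) * (c₀ ^ 2 * dh (sb T f) - s ^ 2) := by
        rw [mul_pow, ← C_pow, ← C_pow, hr]
        ring
      rw [h1]
      exact hd.mul_left _

theorem stmtD : StmtD := by
  intro M g m A c c₁ b T S v J hM hs hδ0 hm hg hgi hgf hc hA hA2 hdet hc₁ hb hbb hb0 hTS hv hCu hQu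
    hHalf hJ hev
  have hfi := irreducible_of_smooth hM.det (by norm_num) hs
  have hfg : ¬ M.det ∣ g := fun h => hgf (hfi.associated_of_dvd hgi h).symm.dvd
  have D : H621.D1Data M.det g (M.adjugate 0 0) m A b c c₁ :=
    ⟨hM.det, hs, hg, hfg, hM.delta, hδ0, hA, hA2, hdet, hc, hb, hbb, hc₁, hb0⟩
  have hdeg : ∀ i j, (M i j).IsHomogeneous (1 + H908.w0 i + H908.w0 j) := by
    intro i j
    have h := hM.entry i j
    fin_cases i <;> fin_cases j <;> exact h
  have hphi : ∀ φ : R3, φ.IsHomogeneous 3 → φ ^ 2 ∈ Ideal.span {M.adjugate 0 0, M.det} →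
      ∃ l : ℂ, φ = MvPolynomial.C l * M.adjugate 0 0 := fun φ hφ h =>
    H908.phi_lemma hM.symm hdeg hs hfi.prime hδ0 hφ h
  have hk : 2 * m + 1 ≤ 2 * (m + 2) := by omega
  exact (D.even_Yd_iff hm hphi hTS (neg_ne_zero.2 hc) hv rfl rfl hCu hQu hHalf
    (fun a ha => (hJ a).2 ha) hk).2 (hev D.curvePair hk)

end Vale.Agent.P287.H597
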