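import Mathlib

/-!
The filtered count: dimensions of quotients of increasing unions, and parity.
-/

namespace Vale.Agent.P287.H597

open Module

section Stab

variable {F W T : Type*} [Field F] [AddCommGroup W] [Module F W] [AddCommGroup T] [Module F T]

/-- A nonincreasing sequence of natural numbers is eventually constant. -/
lemma exists_stable (d : ℕ → ℕ) (k₀ : ℕ) (hd : ∀ k, k₀ ≤ k → d (k + 1) ≤ d k) :
    ∃ k₁, k₀ ≤ k₁ ∧ ∀ k, k₁ ≤ k → d (k + 1) = d k := by
  obtain ⟨k₁, hk₁, hmin⟩ : ∃ k₁, k₀ ≤ k₁ ∧ ∀ k, k₀ ≤ k → d k₁ ≤ d k := by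
    classical
    have hne : ∃ n, ∃ k, k₀ ≤ k ∧ d k = n := ⟨d k₀, k₀, le_rfl, rfl⟩
    obtain ⟨k₁, hk₁, h⟩ := Nat.find_spec hne
    exact ⟨k₁, hk₁, fun k hk => by rw [h]; exact Nat.find_min' hne ⟨k, hk, rfl⟩⟩
  have hle : ∀ k, k₁ ≤ k → d k ≤ d k₁ := by
    intro k hk
    induction k, hk using Nat.le_induction with
    | base => exact le_rfl
    | succ k hk ih => exact (hd k (hk₁.trans hk)).trans ih
  have heq : ∀ k, k₁ ≤ k → d k = d k₁ := fun k hk => le_antisymm (hle k hk) (hmin k (hk₁.trans hk))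
  exact ⟨k₁, hk₁, fun k hk => by rw [heq k hk, heq (k + 1) (by omega)]⟩

lemma finrank_map_inj {V : Type*} [AddCommGroup V] [Module F V] (φ : V →ₗ[F] W)
    (hφ : Function.Injective φ) (P : Submodule F V) :
    finrank F (P.map φ) = finrank F P :=
  (Submodule.equivMapOfInjective φ hφ P).finrank_eq.symm

/-- Rank and nullity for a surjection from a subspace. -/
lemma finrank_quot (P : Submodule F W) [FiniteDimensional F P] (N : Submodule F W) (hN : N ≤ P)
    (π : P →ₗ[F] T) (hsurj : Function.Surjective π) (hker : ∀ z : P, π z = 0 ↔ (z : W) ∈ N) :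
    finrank F T + finrank F N = finrank F P := by
  have h1 := LinearMap.finrank_range_add_finrank_ker π
  rw [LinearMap.range_eq_top.2 hsurj, finrank_top] at h1
  have h2 : LinearMap.ker π = N.comap P.subtype := by
    ext z
    simp only [LinearMap.mem_ker, hker, Submodule.mem_comap, Submodule.coe_subtype]
  rw [h2, (Submodule.comapSubtypeEquivOfLe hN).finrank_eq] at h1
  exact h1

/-- The filtered count. -/
theorem stab (N' N : ℕ → Submodule F W) [∀ k, FiniteDimensional F (N' k)]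
    (hle : ∀ k, N k ≤ N' k) (hN' : Monotone N') (hN : Monotone N)
    (k₀ : ℕ) (hstep : ∀ k, k₀ ≤ k → N' (k + 1) ≤ N' k ⊔ N (k + 1))
    (Q : Submodule F W) (hQ : ∀ z, z ∈ Q ↔ ∃ k, z ∈ N' k)
    (π : Q →ₗ[F] T) (hsurj : Function.Surjective π)
    (hker : ∀ z : Q, π z = 0 ↔ ∃ k, (z : W) ∈ N k) :
    ∃ k₁, ∀ k, k₁ ≤ k → finrank F T + finrank F (N k) = finrank F (N' k) := by
  have hfin : ∀ k, FiniteDimensional F (N k) := fun k =>
    Submodule.finiteDimensional_of_le (hle k)
  have heqs : ∀ k, k₀ ≤ k → finrank F (N' (k + 1)) + finrank F ↥(N' k ⊓ N (k + 1)) =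
      finrank F (N' k) + finrank F (N (k + 1)) := by
    intro k hk
    have h1 : N' (k + 1) = N' k ⊔ N (k + 1) :=
      le_antisymm (hstep k hk) (sup_le (hN' (Nat.le_succ k)) (hle _))
    have h2 := Submodule.finrank_sup_add_finrank_inf_eq (N' k) (N (k + 1))
    rw [← h1] at h2
    exact h2
  have hle2 : ∀ k, N k ≤ N' k ⊓ N (k + 1) := fun k => le_inf (hle k) (hN (Nat.le_succ k))
  have hrle : ∀ k, finrank F (N k) ≤ finrank F (N' k) := fun k => Submodule.finrank_mono (hle k)
  obtain ⟨k₁, hk₁, hst⟩ := exists_stable (fun k => finrank F (N' k) - finrank F (N k)) k₀ (by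
    intro k hk
    have h1 := heqs k hk
    have h2 := Submodule.finrank_mono (hle2 k)
    have h3 := hrle k
    have h4 := hrle (k + 1)
    show finrank F (N' (k + 1)) - finrank F (N (k + 1)) ≤ finrank F (N' k) - finrank F (N k)
    omega)
  have hinf : ∀ k, k₁ ≤ k → N' k ⊓ N (k + 1) = N k := by
    intro k hk
    symm
    apply Submodule.eq_of_le_of_finrank_eq (hle2 k)
    have h1 := heqs k (hk₁.trans hk)
    have h3 := hrle k
    have h4 := hrle (k + 1)
    have h5 : finrank F (N' (k + 1)) - finrank F (N (k + 1)) =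
      finrank F (N' k) - finrank F (N k) := hst k hk
    have h2 := Submodule.finrank_mono (hle2 k)
    omega
  have hinf2 : ∀ k, k₁ ≤ k → ∀ j, N' k ⊓ N (k + j) ≤ N k := by
    intro k hk j
    induction j with
    | zero => exact inf_le_right
    | succ j ih =>
      intro z hz
      have hz1 : z ∈ N' k := hz.1
      have hz2 : z ∈ N (k + j + 1) := hz.2
      have hz3 : z ∈ N' (k + j) ⊓ N (k + j + 1) := ⟨hN' (Nat.le_add_right k j) hz1, hz2⟩
      rw [hinf (k + j) (by omega)] at hz3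
      exact ih ⟨hz1, hz3⟩
  have hsup2 : ∀ k, k₁ ≤ k → ∀ j, N' (k + j) ≤ N' k ⊔ N (k + j) := by
    intro k hk j
    induction j with
    | zero => exact le_sup_left
    | succ j ih =>
      refine (hstep (k + j) (by omega)).trans (sup_le (ih.trans ?_) le_sup_right)
      exact sup_le_sup_left (hN (Nat.le_succ _)) _
  refine ⟨k₁, fun k hk => ?_⟩
  have hNQ : N' k ≤ Q := fun z hz => (hQ z).2 ⟨k, hz⟩
  refine finrank_quot (N' k) (N k) (hle k) (π ∘ₗ Submodule.inclusion hNQ) ?_ ?_
  · intro t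
    obtain ⟨⟨z, hz⟩, rfl⟩ := hsurj t
    obtain ⟨j, hj⟩ := (hQ z).1 hz
    have h1 : z ∈ N' (k + j) := hN' (Nat.le_add_left j k) hj
    obtain ⟨a, ha, b, hb, hab⟩ := Submodule.mem_sup.1 (hsup2 k hk j h1)
    refine ⟨⟨a, ha⟩, ?_⟩
    have hbQ : b ∈ Q := (hQ b).2 ⟨k + j, hle _ hb⟩
    have h2 : (⟨z, hz⟩ : Q) = Submodule.inclusion hNQ ⟨a, ha⟩ + ⟨b, hbQ⟩ := by
      apply Subtype.ext
      exact hab.symm
    rw [h2, map_add, (hker ⟨b, hbQ⟩).2 ⟨k + j, hb⟩, add_zero]
    rfl
  · intro z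
    rw [LinearMap.comp_apply, hker]
    constructor
    · rintro ⟨j, hj⟩
      exact hinf2 k hk j ⟨z.2, hN (Nat.le_add_left j k) hj⟩
    · intro h
      exact ⟨k, h⟩

end Stab

section Filt

variable {F B W : Type*} [Field F] [CommRing B] [Algebra F B]

/-- An exhausting multiplicative filtration of `B` by finite dimensional spaces, whose graded
pieces have dimension `n` from some point on. -/
structure Filt (Bf : ℕ → Submodule F B) (n : ℕ) : Prop where
  mono : Monotone Bf
  mul : ∀ {i j : ℕ} {a b : B}, a ∈ Bf i → b ∈ Bf j → a * b ∈ Bf (i + j)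
  exh : ∀ b : B, ∃ k, b ∈ Bf k
  fin : ∀ k, FiniteDimensional F (Bf k)
  rank : ∃ k₀, ∀ k, k₀ ≤ k → finrank F (Bf (k + 1)) = finrank F (Bf k) + n

/-- `h` has degree `e` and is regular at infinity. -/
structure RegInf (Bf : ℕ → Submodule F B) (h : B) (e : ℕ) : Prop where
  mem : h ∈ Bf e
  inj : ∀ b, h * b = 0 → b = 0
  reg : ∀ k b, h * b ∈ Bf (k + e) → b ∈ Bf k

variable {Bf : ℕ → Submodule F B} {n : ℕ}

lemma RegInf.mul (hB : Filt Bf n) {h h' : B} {e e' : ℕ} (H : RegInf Bf h e)
    (H' : RegInf Bf h' e') : RegInf Bf (h * h') (e + e') := by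
  refine ⟨hB.mul H.mem H'.mem, fun b hb => ?_, fun k b hb => ?_⟩
  · rw [mul_assoc] at hb
    exact H'.inj b (H.inj _ hb)
  · apply H'.reg
    apply H.reg
    rw [mul_assoc] at hb
    rwa [add_assoc, add_comm e' e]

/-- Modulo a regular element, one degree more is not needed. -/
lemma Filt.surj (hB : Filt Bf n) {h : B} {e : ℕ} (H : RegInf Bf h e) :
    ∃ k₀, ∀ k, k₀ ≤ k → Bf (k + 1 + e) ≤
      Bf (k + e) ⊔ (Bf (k + 1)).map (LinearMap.mulLeft F h) := by
  obtain ⟨k₀, hk₀⟩ := hB.rank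
  refine ⟨k₀, fun k hk => ?_⟩
  have := hB.fin
  have hinj : Function.Injective (LinearMap.mulLeft F h) := by
    rw [injective_iff_map_eq_zero]
    intro b hb
    exact H.inj b hb
  have hle : Bf (k + e) ⊔ (Bf (k + 1)).map (LinearMap.mulLeft F h) ≤ Bf (k + 1 + e) := by
    refine sup_le (hB.mono (by omega)) ?_
    rintro _ ⟨b, hb, rfl⟩
    rw [add_comm (k + 1) e]
    exact hB.mul H.mem hb
  have hinf : Bf (k + e) ⊓ (Bf (k + 1)).map (LinearMap.mulLeft F h) =
      (Bf k).map (LinearMap.mulLeft F h) := by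
    apply le_antisymm
    · rintro _ ⟨h1, b, hb, rfl⟩
      exact ⟨b, H.reg k b h1, rfl⟩
    · rintro _ ⟨b, hb, rfl⟩
      refine ⟨?_, b, hB.mono (Nat.le_succ k) hb, rfl⟩
      have h2 := hB.mul H.mem hb
      rw [add_comm] at h2
      exact h2
  have h3 := Submodule.finrank_sup_add_finrank_inf_eq (Bf (k + e))
    ((Bf (k + 1)).map (LinearMap.mulLeft F h))
  rw [hinf, finrank_map_inj _ hinj, finrank_map_inj _ hinj, hk₀ k hk] at h3
  have h4 := hk₀ (k + e) (by omega)
  refine (Submodule.eq_of_le_of_finrank_eq hle ?_).ge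
  have h5 : k + 1 + e = k + e + 1 := by omega
  rw [h5, h4]
  omega

variable [AddCommGroup W] [Module F W] [Module B W] [IsScalarTower F B W]

/-- Multiplication of a vector by scalars of `B`. -/
def mulOn (w : W) : B →ₗ[F] W := (LinearMap.toSpanSingleton B W w).restrictScalars F

@[simp] lemma mulOn_apply (w : W) (b : B) : mulOn (F := F) w b = b • w := rfl

/-- The filtration of `B u + B v`, where `v` has degree one. -/
def free (Bf : ℕ → Submodule F B) (u v : W) (k : ℕ) : Submodule F W :=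
  (Bf k).map (mulOn u) ⊔ (Bf (k - 1)).map (mulOn v)

lemma mem_free {u v z : W} {k : ℕ} :
    z ∈ free Bf u v k ↔ ∃ α ∈ Bf k, ∃ β ∈ Bf (k - 1), α • u + β • v = z := by
  simp only [free, Submodule.mem_sup, Submodule.mem_map, mulOn_apply]
  constructor
  · rintro ⟨_, ⟨α, hα, rfl⟩, _, ⟨β, hβ, rfl⟩, h⟩
    exact ⟨α, hα, β, hβ, h⟩
  · rintro ⟨α, hα, β, hβ, h⟩
    exact ⟨_, ⟨α, hα, rfl⟩, _, ⟨β, hβ, rfl⟩, h⟩

/-- The data of the count: a lattice generated by vectors `w j` of degree `d j`, a filtered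
sublattice `O`, and two elements `c₀`, `h` of `B` which are regular at infinity. -/
structure CountData {ι : Type*} (Bf : ℕ → Submodule F B) (n : ℕ) (u v : W) (w : ι → W)
    (d : ι → ℕ) (D : ℕ) (O : ℕ → Submodule F W) (c₀ : B) (e : ℕ) (h : B) (e' : ℕ) : Prop where
  filt : Filt Bf n
  indep : ∀ α β : B, α • u + β • v = 0 → α = 0 ∧ β = 0
  deg : ∀ j, d j ≤ D
  O_mono : Monotone O
  O_fin : ∀ k, FiniteDimensional F (O k)
  O_mul : ∀ {i j : ℕ} {b : B} {z : W}, b ∈ Bf i → z ∈ O j → b • z ∈ O (i + j)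
  c_reg : RegInf Bf c₀ e
  c_mem : ∀ j, c₀ • w j ∈ O (e + d j)
  h_reg : RegInf Bf h e'
  h_pos : 1 ≤ e'
  h_mem : ∀ j, h • w j ∈ free Bf u v (e' + d j)
  h_O : ∀ {k : ℕ} {z : W}, z ∈ O k → h • z ∈ free Bf u v (e' + k)
  u_mem : ∃ j, w j = u ∧ d j = 0
  v_mem : v ∈ Submodule.span F (w '' {j | d j ≤ 1})

variable {ι : Type*} {u v : W} {w : ι → W} {d : ι → ℕ} {D : ℕ}
  {O : ℕ → Submodule F W} {c₀ : B} {e : ℕ} {h : B} {e' : ℕ}

/-- The filtration of the big lattice. -/
def big (Bf : ℕ → Submodule F B) (w : ι → W) (d : ι → ℕ) (D : ℕ) (O : ℕ → Submodule F W)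
    (k : ℕ) : Submodule F W :=
  (⨆ j, (Bf (k + (D - d j))).map (mulOn (w j))) ⊔ O (k + D)

lemma mem_big_of {k : ℕ} {b : B} (j : ι) (hb : b ∈ Bf (k + (D - d j))) :
    b • w j ∈ big Bf w d D O k :=
  Submodule.mem_sup_left (Submodule.mem_iSup_of_mem j ⟨b, hb, rfl⟩)

lemma big_le {k : ℕ} {P : Submodule F W} (h1 : ∀ j, ∀ b ∈ Bf (k + (D - d j)), b • w j ∈ P)
    (h2 : O (k + D) ≤ P) : big Bf w d D O k ≤ P := by
  refine sup_le (iSup_le fun j => ?_) h2
  rintro _ ⟨b, hb, rfl⟩
  exact h1 j b hb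

lemma free_mono (hB : Filt Bf n) {k l : ℕ} (hkl : k ≤ l) : free Bf u v k ≤ free Bf u v l :=
  sup_le_sup (Submodule.map_mono (hB.mono hkl)) (Submodule.map_mono (hB.mono (by omega)))

lemma smul_free (hB : Filt Bf n) {k l : ℕ} (hk : 1 ≤ k) {b : B} (hb : b ∈ Bf l) {z : W}
    (hz : z ∈ free Bf u v k) : b • z ∈ free Bf u v (l + k) := by
  obtain ⟨α, hα, β, hβ, rfl⟩ := mem_free.1 hz
  refine mem_free.2 ⟨b * α, hB.mul hb hα, b * β, ?_, ?_⟩
  · have := hB.mul hb hβ
    rwa [← Nat.add_sub_assoc hk] at this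
  · rw [smul_add, smul_smul, smul_smul]

namespace CountData

variable (C : CountData Bf n u v w d D O c₀ e h e')
include C

lemma big_mono : Monotone (big Bf w d D O) := by
  intro k l hkl
  refine big_le (fun j b hb => mem_big_of j (C.filt.mono (by omega) hb)) ?_
  exact (C.O_mono (by omega)).trans le_sup_right

lemma big_fin [Finite ι] (k : ℕ) : FiniteDimensional F (big Bf w d D O k) := by
  have h1 := C.filt.fin
  have h2 := C.O_fin
  unfold big
  infer_instance

lemma free_fin (k : ℕ) : FiniteDimensional F (free Bf u v k) := by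
  have h1 := C.filt.fin
  unfold free
  infer_instance

lemma finrank_free (k : ℕ) :
    finrank F (free Bf u v k) = finrank F (Bf k) + finrank F (Bf (k - 1)) := by
  have h1 := C.filt.fin
  have hu : Function.Injective (mulOn (F := F) (B := B) u) := by
    rw [injective_iff_map_eq_zero]
    intro b hb
    refine (C.indep b 0 ?_).1
    rw [zero_smul, add_zero]
    exact hb
  have hv : Function.Injective (mulOn (F := F) (B := B) v) := by
    rw [injective_iff_map_eq_zero]
    intro b hb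
    refine (C.indep 0 b ?_).2
    rw [zero_smul, zero_add]
    exact hb
  have h2 := Submodule.finrank_sup_add_finrank_inf_eq ((Bf k).map (mulOn (F := F) u))
    ((Bf (k - 1)).map (mulOn (F := F) v))
  have h3 : (Bf k).map (mulOn (F := F) u) ⊓ (Bf (k - 1)).map (mulOn (F := F) v) = ⊥ := by
    rw [eq_bot_iff]
    rintro _ ⟨⟨α, hα, rfl⟩, β, hβ, hαβ⟩
    have h4 := C.indep α (-β) (by
      rw [neg_smul, ← sub_eq_add_neg, sub_eq_zero]
      exact hαβ.symm)
    rw [h4.1, map_zero]
    exact Submodule.zero_mem _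
  rw [h3, finrank_bot, add_zero, finrank_map_inj _ hu, finrank_map_inj _ hv] at h2
  exact h2

lemma v_mem_big {k : ℕ} {b : B} (hb : b ∈ Bf (k + (D - 1))) : b • v ∈ big Bf w d D O k := by
  have h1 : ∀ z ∈ Submodule.span F (w '' {j | d j ≤ 1}), b • z ∈ big Bf w d D O k := by
    intro z hz
    induction hz using Submodule.span_induction with
    | mem z hz =>
      obtain ⟨j, hj, rfl⟩ := hz
      have hj1 : d j ≤ 1 := hj
      exact mem_big_of j (C.filt.mono (by omega) hb)
    | zero =>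
      rw [smul_zero]
      exact Submodule.zero_mem _
    | add x y _ _ hx hy =>
      rw [smul_add]
      exact Submodule.add_mem _ hx hy
    | smul a x _ hx =>
      have h2 : b • a • x = a • b • x := by
        rw [← algebraMap_smul B a x, ← algebraMap_smul B a (b • x), smul_smul, smul_smul,
          mul_comm]
      rw [h2]
      exact Submodule.smul_mem _ _ hx
  exact h1 v C.v_mem

lemma free_le_big (hD : 1 ≤ D) (k : ℕ) : free Bf u v (k + D) ≤ big Bf w d D O k := by
  intro z hz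
  obtain ⟨α, hα, β, hβ, rfl⟩ := mem_free.1 hz
  refine Submodule.add_mem _ ?_ ?_
  · obtain ⟨j, hj, hdj⟩ := C.u_mem
    rw [← hj]
    refine mem_big_of j ?_
    rw [hdj]
    exact hα
  · apply C.v_mem_big
    rwa [Nat.add_sub_assoc hD] at hβ

/-- Multiplication by `h` sends the big lattice to the free one. -/
lemma smul_big {k : ℕ} {z : W} (hz : z ∈ big Bf w d D O k) :
    h • z ∈ free Bf u v (e' + (k + D)) := by
  have h1 : big Bf w d D O k ≤
      (free Bf u v (e' + (k + D))).comap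
        ((LinearMap.lsmul B W h).restrictScalars F) := by
    refine big_le ?_ ?_
    · intro j b hb
      show h • b • w j ∈ free Bf u v (e' + (k + D))
      rw [smul_comm]
      have h2 := smul_free C.filt (u := u) (v := v) (by have := C.h_pos; omega) hb (C.h_mem j)
      refine free_mono C.filt ?_ h2
      have := C.deg j
      omega
    · intro z hz
      exact C.h_O hz
  exact h1 hz

/-- The free lattice is saturated in the big one. -/
lemma saturated (hD : 1 ≤ D) {k : ℕ} {α β : B} (hz : α • u + β • v ∈ big Bf w d D O k) :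
    α ∈ Bf (k + D) ∧ β ∈ Bf (k + D - 1) := by
  obtain ⟨α', hα', β', hβ', heq⟩ := mem_free.1 (C.smul_big hz)
  have h1 := C.indep (α' - h * α) (β' - h * β) (by
    rw [sub_smul, sub_smul, mul_smul, mul_smul]
    rw [smul_add] at heq
    rw [← sub_eq_zero] at heq
    rw [← heq]
    abel)
  have h2 : h * α = α' := (sub_eq_zero.1 h1.1).symm
  have h3 : h * β = β' := (sub_eq_zero.1 h1.2).symm
  constructor
  · apply C.h_reg.reg
    rw [h2, add_comm]
    exact hα'
  · apply C.h_reg.reg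
    rw [h3]
    have h4 : e' + (k + D) - 1 = k + D - 1 + e' := by omega
    rwa [h4] at hβ'

/-- Every step of the big filtration comes from the sublattice. -/
lemma big_step [Finite ι] : ∃ k₀, ∀ k, k₀ ≤ k →
    big Bf w d D O (k + 1) ≤ big Bf w d D O k ⊔ O (k + 1 + D) := by
  obtain ⟨k₀, hk₀⟩ := C.filt.surj C.c_reg
  refine ⟨k₀ + e, fun k hk => big_le ?_ ?_⟩
  · intro j b hb
    have hj := C.deg j
    have h1 : k + 1 + (D - d j) = (k + (D - d j) - e) + 1 + e := by omega
    rw [h1] at hb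
    obtain ⟨b₁, hb₁, _, ⟨b₂, hb₂, rfl⟩, rfl⟩ :=
      Submodule.mem_sup.1 (hk₀ (k + (D - d j) - e) (by omega) hb)
    rw [add_smul]
    refine Submodule.add_mem _ (Submodule.mem_sup_left ?_) (Submodule.mem_sup_right ?_)
    · have h2 : k + (D - d j) - e + e = k + (D - d j) := by omega
      rw [h2] at hb₁
      exact mem_big_of j hb₁
    · rw [LinearMap.mulLeft_apply, mul_comm, mul_smul]
      have h3 := C.O_mul hb₂ (C.c_mem j)
      have h4 : k + (D - d j) - e + 1 + (e + d j) = k + 1 + D := by omega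
      rwa [h4] at h3
  · exact le_sup_right

/-- The big lattice. -/
lemma exists_big (hO : ∀ k, ∀ z ∈ O k, z ∈ Submodule.span B (Set.range w)) (z : W) :
    z ∈ Submodule.span B (Set.range w) ↔ ∃ k, z ∈ big Bf w d D O k := by
  constructor
  · intro hz
    induction hz using Submodule.span_induction with
    | mem z hz =>
      obtain ⟨j, rfl⟩ := hz
      obtain ⟨k, hk⟩ := C.filt.exh 1
      refine ⟨k, ?_⟩
      rw [← one_smul B (w j)]
      exact mem_big_of j (C.filt.mono (by omega) hk)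
    | zero => exact ⟨0, Submodule.zero_mem _⟩
    | add x y _ _ hx hy =>
      obtain ⟨k, hk⟩ := hx
      obtain ⟨l, hl⟩ := hy
      exact ⟨max k l, Submodule.add_mem _ (C.big_mono (le_max_left _ _) hk)
        (C.big_mono (le_max_right _ _) hl)⟩
    | smul b x _ hx =>
      obtain ⟨k, hk⟩ := hx
      obtain ⟨l, hl⟩ := C.filt.exh b
      refine ⟨l + k, ?_⟩
      have h1 : big Bf w d D O k ≤
          (big Bf w d D O (l + k)).comap ((LinearMap.lsmul B W b).restrictScalars F) := by
        refine big_le ?_ ?_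
        · intro j a ha
          show b • a • w j ∈ big Bf w d D O (l + k)
          rw [smul_smul]
          refine mem_big_of j ?_
          rw [add_assoc]
          exact C.filt.mul hl ha
        · intro z hz
          show b • z ∈ big Bf w d D O (l + k)
          refine Submodule.mem_sup_right ?_
          rw [add_assoc]
          exact C.O_mul hl hz
      exact h1 hk
  · rintro ⟨k, hk⟩
    have h1 : big Bf w d D O k ≤ (Submodule.span B (Set.range w)).restrictScalars F := by
      refine big_le ?_ ?_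
      · intro j b _
        exact (Submodule.span B (Set.range w)).smul_mem b
          (Submodule.subset_span (Set.mem_range_self j))
      · intro z hz
        exact hO _ z hz
    exact h1 hk

/-- `B` is generated by a finite dimensional space, modulo `h`. -/
lemma exists_mod_h : ∃ K, ∀ b : B, ∃ b₁ ∈ Bf K, ∃ b₂, b = b₁ + h * b₂ := by
  obtain ⟨k₀, hk₀⟩ := C.filt.surj C.h_reg
  refine ⟨k₀ + e', ?_⟩
  have h1 : ∀ j, ∀ b ∈ Bf (k₀ + e' + j), ∃ b₁ ∈ Bf (k₀ + e'), ∃ b₂, b = b₁ + h * b₂ := by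
    intro j
    induction j with
    | zero => exact fun b hb => ⟨b, hb, 0, by ring⟩
    | succ j ih =>
      intro b hb
      have h2 : k₀ + e' + (j + 1) = k₀ + j + 1 + e' := by omega
      rw [h2] at hb
      obtain ⟨b₁, hb₁, _, ⟨b₂, hb₂, rfl⟩, rfl⟩ :=
        Submodule.mem_sup.1 (hk₀ (k₀ + j) (by omega) hb)
      obtain ⟨a₁, ha₁, a₂, rfl⟩ := ih b₁ (by
        have h3 : k₀ + e' + j = k₀ + j + e' := by omega
        rwa [h3])
      refine ⟨a₁, ha₁, a₂ + b₂, ?_⟩
      rw [LinearMap.mulLeft_apply]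
      ring
  intro b
  obtain ⟨k, hk⟩ := C.filt.exh b
  exact h1 k b (C.filt.mono (by omega) hk)

/-- **The count.** -/
theorem count [Finite ι] (hD : 1 ≤ D) {T T' : Type*} [AddCommGroup T] [Module F T]
    [AddCommGroup T'] [Module F T']
    (hO : ∀ k, ∀ z ∈ O k, z ∈ Submodule.span B (Set.range w))
    (π : ↥((Submodule.span B (Set.range w)).restrictScalars F) →ₗ[F] T)
    (hπ : Function.Surjective π) (hker : ∀ z, π z = 0 ↔ ∃ k, (z : W) ∈ O k)
    (π' : ↥((Submodule.span B (Set.range w)).restrictScalars F) →ₗ[F] T')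
    (hπ' : Function.Surjective π')
    (hker' : ∀ z, π' z = 0 ↔ ∃ α β : B, α • u + β • v = z) :
    ∃ k₁, ∀ k, k₁ ≤ k → finrank F T' + (finrank F (Bf k) + finrank F (Bf (k - 1))) =
      finrank F T + finrank F (O k) := by
  have hfin := C.big_fin
  have hQ := C.exists_big hO
  obtain ⟨k₀, hk₀⟩ := C.big_step
  obtain ⟨k₁, hk₁⟩ := stab (big Bf w d D O) (fun k => O (k + D)) (fun k => le_sup_right)
    C.big_mono (fun k l hkl => C.O_mono (by omega)) k₀ hk₀
    ((Submodule.span B (Set.range w)).restrictScalars F) hQ π hπ (by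
      intro z
      rw [hker]
      constructor
      · rintro ⟨k, hk⟩
        exact ⟨k, C.O_mono (by omega) hk⟩
      · rintro ⟨k, hk⟩
        exact ⟨_, hk⟩)
  obtain ⟨K, hK⟩ := C.exists_mod_h
  refine ⟨max k₁ K + D, fun k hk => ?_⟩
  obtain ⟨k, rfl⟩ : ∃ l, k = l + D := ⟨k - D, by omega⟩
  have hk1 : k₁ ≤ k := by
    have := le_max_left k₁ K
    omega
  have hk2 : K ≤ k := by
    have := le_max_right k₁ K
    omega
  rw [← C.finrank_free, hk₁ k hk1]
  have hle : big Bf w d D O k ≤ (Submodule.span B (Set.range w)).restrictScalars F :=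
    fun z hz => (hQ z).2 ⟨k, hz⟩
  refine finrank_quot (big Bf w d D O k) (free Bf u v (k + D)) (C.free_le_big hD k)
    (π' ∘ₗ Submodule.inclusion hle) ?_ ?_
  · intro t
    obtain ⟨⟨z, hz⟩, rfl⟩ := hπ' t
    have hz' : z ∈ Submodule.span B (Set.range w) := hz
    cases nonempty_fintype ι
    obtain ⟨c, hc⟩ := (Submodule.mem_span_range_iff_exists_fun B).1 hz'
    choose b₁ hb₁ b₂ hb using hK
    have hm := fun j => mem_free.1 (C.h_mem j)
    choose α _ β _ hαβ using hm
    have hy : ∑ j, b₁ (c j) • w j ∈ big Bf w d D O k :=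
      Submodule.sum_mem _ fun j _ => mem_big_of j (C.filt.mono (by omega) (hb₁ (c j)))
    have hzy : z = ∑ j, b₁ (c j) • w j +
        ((∑ j, b₂ (c j) * α j) • u + (∑ j, b₂ (c j) * β j) • v) := by
      rw [← hc, Finset.sum_smul, Finset.sum_smul, ← Finset.sum_add_distrib,
        ← Finset.sum_add_distrib]
      refine Finset.sum_congr rfl fun j _ => ?_
      conv_lhs => rw [hb (c j)]
      rw [add_smul, mul_comm h, mul_smul, ← hαβ j, smul_add, smul_smul, smul_smul]
    refine ⟨⟨_, hy⟩, ?_⟩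
    rw [LinearMap.comp_apply, ← sub_eq_zero, ← map_sub, hker']
    refine ⟨-∑ j, b₂ (c j) * α j, -∑ j, b₂ (c j) * β j, ?_⟩
    show _ = (∑ j, b₁ (c j) • w j) - z
    rw [hzy, neg_smul, neg_smul]
    abel
  · intro z
    rw [LinearMap.comp_apply, hker']
    constructor
    · rintro ⟨α, β, hz⟩
      have h1 := C.saturated hD (k := k) (α := α) (β := β) (by
        rw [hz]
        exact z.2)
      have h2 : α • u + β • v = (z : W) := hz
      rw [← h2]
      exact mem_free.2 ⟨α, h1.1, β, h1.2, rfl⟩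
    · intro hz
      obtain ⟨α, _, β, _, hαβ⟩ := mem_free.1 hz
      exact ⟨α, β, hαβ⟩

/-- **The parity count.** -/
theorem odd [Finite ι] (hD : 1 ≤ D) {T T' : Type*} [AddCommGroup T] [Module F T]
    [AddCommGroup T'] [Module F T']
    (hO : ∀ k, ∀ z ∈ O k, z ∈ Submodule.span B (Set.range w))
    (π : ↥((Submodule.span B (Set.range w)).restrictScalars F) →ₗ[F] T)
    (hπ : Function.Surjective π) (hker : ∀ z, π z = 0 ↔ ∃ k, (z : W) ∈ O k)
    (π' : ↥((Submodule.span B (Set.range w)).restrictScalars F) →ₗ[F] T')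
    (hπ' : Function.Surjective π')
    (hker' : ∀ z, π' z = 0 ↔ ∃ α β : B, α • u + β • v = z)
    (hT : Even (finrank F T)) (hev : ∃ k₀, ∀ k, k₀ ≤ k → Even (finrank F (O k)))
    (hodd : ∃ k₀, ∀ k, k₀ ≤ k → Odd (finrank F (Bf k) + finrank F (Bf (k - 1)))) :
    Odd (finrank F T') := by
  obtain ⟨k₁, h₁⟩ := C.count hD hO π hπ hker π' hπ' hker'
  obtain ⟨k₂, h₂⟩ := hev
  obtain ⟨k₃, h₃⟩ := hodd
  have h4 := h₁ (max k₁ (max k₂ k₃)) (le_max_left _ _)
  have h5 := h₂ (max k₁ (max k₂ k₃)) (by omega)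
  have h6 := h₃ (max k₁ (max k₂ k₃)) (by omega)
  have h7 := hT.add h5
  rw [← h4] at h7
  by_contra h8
  rw [Nat.not_odd_iff_even] at h8
  exact (Nat.not_even_iff_odd.2 (h8.add_odd h6)) h7

end CountData

end Filt

end Vale.Agent.P287.H597
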