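import Vale.Agent.P287.H597.OddMain
import Vale.Agent.P287.H597.OddBlocks

/-!
The odd theta theorem.
-/

namespace Vale.Agent.P287.H597

open MvPolynomial Matrix Module Vale.Agent.P287 Vale.Agent.P287.Theta Vale.Agent.P287.Odd
  Vale.Agent.P287.H925 Vale.Agent.P287.H925.NetResult

/-- The odd theta theorem, from the three remaining blocks. -/
theorem odd_theta_of (hV : StmtV) (hT : StmtT) (hK : StmtK)
    {M : Matrix (Fin 4) (Fin 4) (MvPolynomial (Fin 3) ℂ)} (hM : M.IsSymm)
    (hdeg : ∀ i j, (M i j).IsHomogeneous (1 + wt i + wt j)) (hs : SmoothForm (cubicOf M))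
    (hsm : SmoothP M.det) {g : P3} {m : ℕ} (hm : 2 ≤ m) (hg : Irreducible g)
    (hgr : g.IsHomogeneous (2 * m + 1)) (hgood : GoodRoot M.det g)
    (hev : EvenSections m g M.det) : RationalHypersurface (cubicOf M) := by
  have hdet : (M.submatrix sw sw).det = M.det := Matrix.det_submatrix_equiv_self sw M
  have hadj : (M.submatrix sw sw).adjugate 0 0 = M.adjugate 3 3 := by
    rw [Matrix.adjugate_submatrix_equiv_self]
    rfl
  have hquad : ∀ v : Fin 4 → RatK,
      v ⬝ᵥ (((M.submatrix sw sw).map (aeval tvec : P3 →ₐ[ℂ] RatK)) *ᵥ v) =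
        (v ∘ sw) ⬝ᵥ ((M.map (aeval tvec : P3 →ₐ[ℂ] RatK)) *ᵥ (v ∘ sw)) := by
    intro v
    simp only [dotProduct, Matrix.mulVec, Matrix.map_apply, Matrix.submatrix_apply]
    rw [← Equiv.sum_comp sw]
    refine Finset.sum_congr rfl fun i _ => ?_
    rw [← Equiv.sum_comp sw]
    simp
  have hiso : ∀ v : Fin 4 → RatK, v ≠ 0 →
      v ⬝ᵥ (((M.submatrix sw sw).map (aeval tvec : P3 →ₐ[ℂ] RatK)) *ᵥ v) = 0 →
      RationalHypersurface (cubicOf M) := by
    intro v hv hqv
    refine rational_of_isotropic_matrix M hdeg hs (v ∘ sw) ?_ ?_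
    · intro h
      apply hv
      funext i
      have := congrFun h (sw i)
      simpa using this
    · rw [← hqv, hquad]
  by_cases hδ : M.adjugate 3 3 = 0
  · obtain ⟨v, hv, hqv⟩ := isotropic_of_minor (M := M.submatrix sw sw) (by rw [hadj, hδ])
    exact hiso v hv hqv
  rcases odd_core_of hV hT stmtJ0 stmtD stmtBC hK (M := M.submatrix sw sw) (g := g) (m := m)
    (fibShape_sw hM hdeg) (by rw [hdet]; exact hsm) (by rw [hadj]; exact hδ) hm hgr hg
    (by rw [hdet]; exact hgood) (by rw [hdet]; exact hev) with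
    ⟨v, hv, hqv⟩ | ⟨A, c, l, φ, hc, hA, hA2, hAdet, hφ, s, t, hts, hpt⟩
  · exact hiso v hv hqv
  · let τ : (Fin 4 → RatK) ≃ₗ[RatK] (Fin 4 → RatK) := LinearEquiv.funCongrLeft RatK RatK sw
    refine H69.rational_of_verra_equiv M hdeg hs A (fun i j => hA.apply j i) hA2 ?_ l (τ.trans φ)
      ?_ t s hts hpt
    · intro z hz
      apply hsm z
      intro i
      have h1 := hz i
      rw [hAdet, hdet, Derivation.leibniz, pderiv_C, smul_zero, add_zero, smul_eq_mul, map_mul,
        aeval_C] at h1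
      have h2 := (mul_eq_zero.1 h1).resolve_left (by simpa using hc)
      rwa [eval_eq_aeval]
    · intro v
      have h1 : (τ.trans φ) v = φ (v ∘ sw) := rfl
      have h2 : (v ∘ sw) ∘ sw = v := by
        funext i
        simp
      rw [h1, hφ, hquad, h2]

end Vale.Agent.P287.H597
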