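import Vale.Agent.P287.H69.Genus
import Vale.Agent.P287.H925V.OddFull

/-!
The odd theta theorem in terms of the arithmetic genus of one half of the split curve.
-/

namespace Vale.Agent.P287.H597

open MvPolynomial Matrix Module Vale.Agent.P287 Vale.Agent.P287.Theta Vale.Agent.P287.Odd
  Vale.Agent.P287.H925 Vale.Agent.P287.H925.NetResult

/-- The substitution `x ↦ λ x`, followed by `φ` on the coefficients. -/
noncomputable def scaleHom {A : Type*} [CommRing A] [Algebra ℂ A] (φ : P3 →ₐ[ℂ] A) :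
    P3 →ₐ[ℂ] Polynomial A :=
  aeval fun i => Polynomial.C (φ (X i)) * Polynomial.X

section Scale

variable {A : Type*} [CommRing A] [Algebra ℂ A]

lemma scaleHom_homog (φ : P3 →ₐ[ℂ] A) {a : P3} {n : ℕ} (ha : a.IsHomogeneous n) :
    scaleHom φ a = Polynomial.C (φ a) * Polynomial.X ^ n := by
  have h1 : ∀ u ∈ a.support, scaleHom φ (monomial u (a.coeff u)) =
      Polynomial.C (φ (monomial u (a.coeff u))) * Polynomial.X ^ n := by
    intro u hu
    have h2 : ∑ i ∈ u.support, u i = n := by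
      have := ha (mem_support_iff.mp hu)
      rw [Finsupp.weight_apply, Finsupp.sum] at this
      simpa using this
    have h3 : (u.prod fun i k => (Polynomial.C (φ (X i)) * Polynomial.X) ^ k) =
        Polynomial.C (φ (u.prod fun i k => (X i : P3) ^ k)) * Polynomial.X ^ n := by
      simp only [Finsupp.prod, mul_pow, Finset.prod_mul_distrib, map_prod, map_pow,
        Finset.prod_pow_eq_pow_sum, h2]
    rw [scaleHom, aeval_monomial, h3, monomial_eq, map_mul, map_mul, mul_assoc]
    congr 1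
    rw [← MvPolynomial.algebraMap_eq, AlgHom.commutes]
    rfl
  conv_lhs => rw [a.as_sum]
  rw [map_sum, Finset.sum_congr rfl h1, ← Finset.sum_mul, ← map_sum, ← map_sum, ← a.as_sum]

lemma coeff_scaleHom (φ : P3 →ₐ[ℂ] A) (a : P3) (n : ℕ) : (scaleHom φ a).coeff n =
    φ (homogeneousComponent n a) := by
  conv_lhs => rw [← a.sum_homogeneousComponent]
  rw [map_sum, Polynomial.finsetSum_coeff]
  have h1 : ∀ i ∈ Finset.range (a.totalDegree + 1),
      (scaleHom φ (homogeneousComponent i a)).coeff n =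
        if n = i then φ (homogeneousComponent n a) else 0 := by
    intro i _
    rw [scaleHom_homog φ (homogeneousComponent_isHomogeneous i a), Polynomial.coeff_C_mul_X_pow]
    split_ifs with h
    · rw [h]
    · rfl
  rw [Finset.sum_congr rfl h1, Finset.sum_ite_eq]
  split_ifs with h
  · rfl
  · rw [homogeneousComponent_eq_zero, map_zero]
    rw [Finset.mem_range] at h
    omega

lemma scale_components [IsDomain A] (φ : P3 →ₐ[ℂ] A) {g a s : P3} {n k : ℕ}
    (hgn : g.IsHomogeneous n) (hφ : φ g = 0)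
    (ha : a.IsHomogeneous (2 * k)) (h : g ∣ a - s ^ 2) (i : ℕ) (hi : i ≠ k) :
    φ (homogeneousComponent i s) = 0 := by
  have h1 : scaleHom φ (a - s ^ 2) = 0 := by
    obtain ⟨q, hq⟩ := h
    rw [hq, map_mul, scaleHom_homog φ hgn, hφ, map_zero, zero_mul, zero_mul]
  have h2 : φ a = φ s ^ 2 := by
    obtain ⟨q, hq⟩ := h
    rw [← map_pow, ← sub_eq_zero, ← map_sub, hq, map_mul, hφ, zero_mul]
  have h3 : scaleHom φ s ^ 2 = (Polynomial.C (φ s) * Polynomial.X ^ k) ^ 2 := by
    rw [map_sub, map_pow, sub_eq_zero] at h1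
    rw [← h1, scaleHom_homog φ ha, h2, mul_pow, map_pow, ← pow_mul, mul_comm k 2]
  obtain ⟨c, hc⟩ : ∃ c : A, scaleHom φ s = Polynomial.C c * Polynomial.X ^ k := by
    rcases sq_eq_sq_iff_eq_or_eq_neg.mp h3 with h4 | h4
    · exact ⟨_, h4⟩
    · exact ⟨-_, by rw [h4, map_neg, neg_mul]⟩
  rw [← coeff_scaleHom, hc, Polynomial.coeff_C_mul_X_pow, if_neg hi]

end Scale

/-- A square root of a form modulo an irreducible form is a form. -/
lemma exists_homog_root {g a s : P3} {n k : ℕ} (hg : Irreducible g) (hgn : g.IsHomogeneous n)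
    (ha : a.IsHomogeneous (2 * k)) (h : g ∣ a - s ^ 2) :
    ∃ s' : P3, s'.IsHomogeneous k ∧ g ∣ s - s' := by
  have hp : (Ideal.span {g}).IsPrime :=
    (Ideal.span_singleton_prime hg.ne_zero).mpr hg.prime
  have h4 : ∀ i, i ≠ k → g ∣ homogeneousComponent i s := by
    intro i hi
    rw [← Ideal.mem_span_singleton, ← Ideal.Quotient.eq_zero_iff_mem]
    exact scale_components (Ideal.Quotient.mkₐ ℂ (Ideal.span {g})) hgn
      (Ideal.Quotient.eq_zero_iff_mem.mpr (Ideal.mem_span_singleton_self g)) ha h i hi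
  refine ⟨homogeneousComponent k s, homogeneousComponent_isHomogeneous k s, ?_⟩
  by_cases hk : k ∈ Finset.range (s.totalDegree + 1)
  · have h5 : s - homogeneousComponent k s =
        ∑ i ∈ (Finset.range (s.totalDegree + 1)).erase k, homogeneousComponent i s := by
      have h6 := s.sum_homogeneousComponent
      rw [← Finset.add_sum_erase _ _ hk] at h6
      exact sub_eq_of_eq_add' h6.symm
    rw [h5]
    exact Finset.dvd_sum fun i hi => h4 i (Finset.ne_of_mem_erase hi)
  · rw [homogeneousComponent_eq_zero k s (by rw [Finset.mem_range] at hk; omega), sub_zero]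
    conv_rhs => rw [← s.sum_homogeneousComponent]
    exact Finset.dvd_sum fun i hi => h4 i (fun h => hk (h ▸ hi))

open H69 in
lemma Rel_congr {g c s s' : P3} (h : g ∣ s - s') (t : ℕ) : Rel g c s t = Rel g c s' t := by
  ext v
  rw [mem_Rel, mem_Rel]
  have h1 : g ∣ (c * v.1 + s * v.2) ↔ g ∣ (c * v.1 + s' * v.2) := by
    have h2 : c * v.1 + s * v.2 = (c * v.1 + s' * v.2) + (s - s') * v.2 := by ring
    rw [h2]
    exact dvd_add_left (h.mul_right _)
  rw [h1]

variable {M : Matrix (Fin 4) (Fin 4) (MvPolynomial (Fin 3) ℂ)}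

/-- **The odd theta theorem, numerical form**: if the half `D` of the split curve has odd degree
and odd arithmetic genus, then the cubic is rational. -/
theorem odd_theta_genus (hM : M.IsSymm)
    (hdeg : ∀ i j, (M i j).IsHomogeneous (1 + wt i + wt j)) (hs : SmoothForm (cubicOf M))
    (hsm : SmoothP M.det) {g : P3} {m : ℕ} (hm : 2 ≤ m) (hg : Irreducible g)
    (hgr : g.IsHomogeneous (2 * m + 1)) {e : ℕ} {s c : P3} (hc : c.IsHomogeneous e)
    (hd : g ∣ c ^ 2 * M.det - s ^ 2)
    (hH : ∀ z : Fin 3 → ℂ, z ≠ 0 →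
      ¬ (aeval z c = 0 ∧ aeval z M.det = 0 ∧ aeval z g = 0))
    {p : ℕ} (hp : Odd p) (hG : H69.HasGenus g c s (2 * m + 1) p) :
    RationalHypersurface (cubicOf M) := by
  have hf := det_hom6 hdeg
  have hfi : Irreducible M.det := (prime_of_smoothP hf (by norm_num) hsm).irreducible
  have hgf := not_dvd_det hf hfi hgr hg
  have hgc : ¬ g ∣ c := not_dvd_of_good hf (by norm_num) hgr (by omega) hH
  obtain ⟨s', hs', hss⟩ := exists_homog_root (a := c ^ 2 * M.det) (k := e + 3) hg hgr (by
    have h1 := (hc.pow 2).mul hf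
    rwa [show e * 2 + 6 = 2 * (e + 3) by ring] at h1) hd
  have hd' : g ∣ c ^ 2 * M.det - s' ^ 2 := by
    have h1 : c ^ 2 * M.det - s' ^ 2 = (c ^ 2 * M.det - s ^ 2) + (s - s') * (s + s') := by ring
    rw [h1]
    exact dvd_add hd (hss.mul_right _)
  refine H925V.odd_theta hM hdeg hs hsm hm hg hgr ⟨e, s, c, hc, hd, hH⟩ ?_
  intro H hk
  refine (H69.genus_parity hf hsm hm hgr hg hgf hc hgc hs' hd' (p := p) ?_ H hk).mpr hp
  obtain ⟨t₀, ht₀⟩ := hG
  refine ⟨t₀, fun t ht => ?_⟩
  rw [← Rel_congr hss]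
  exact ht₀ t ht

end Vale.Agent.P287.H597
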