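import Vale.Agent.P287.Theta.Core
import Vale.Agent.P287.Odd.Spec
import Vale.Agent.P287.H946.Base

/-!
The odd theta theorem: from the affine coordinates over `RatK` back to the plane.
-/

namespace Vale.Agent.P287.H597

open Polynomial Matrix Module Vale.Agent.P287 Vale.Agent.P287.Theta Vale.Agent.P287.Odd

variable {E : Type} [Field E] [Algebra ℂ E] [Algebra RatK E] [IsScalarTower ℂ RatK E]

lemma bc_CC (a : ℂ) : H946.bc ℂ RatK (C (C a)) = C (C (algebraMap ℂ RatK a)) := by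
  simp [H946.bc]

/-- The point of the plane with values in `E`. -/
noncomputable def pt (T : Matrix (Fin 3) (Fin 3) ℂ) (φ : RatK[X][X] →ₐ[RatK] E) : Fin 3 → E :=
  fun i => φ (H946.bc ℂ RatK (dh (sb T (MvPolynomial.X i))))

lemma aeval_pt (T : Matrix (Fin 3) (Fin 3) ℂ) (φ : RatK[X][X] →ₐ[RatK] E) (Q : R3) :
    MvPolynomial.aeval (pt T φ) Q = φ (H946.bc ℂ RatK (dh (sb T Q))) := by
  have h : (MvPolynomial.aeval (pt T φ) : R3 →ₐ[ℂ] E).toRingHom =
      (φ : RatK[X][X] →+* E).comp ((H946.bc ℂ RatK).comp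
        ((dh : R3 →+* ℂ[X][X]).comp (sb T : R3 →+* R3))) := by
    apply MvPolynomial.ringHom_ext
    · intro a
      have h1 : sb T (MvPolynomial.C a) = MvPolynomial.C a := by
        rw [← MvPolynomial.algebraMap_eq, AlgHom.commutes]
      have h2 : dh (MvPolynomial.C a) = C (C a) := by
        rw [← MvPolynomial.algebraMap_eq, AlgHom.commutes]
        rfl
      have h3 : φ (C (C (algebraMap ℂ RatK a))) = algebraMap ℂ E a := by
        rw [IsScalarTower.algebraMap_apply ℂ RatK E]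
        exact φ.commutes (algebraMap ℂ RatK a)
      change MvPolynomial.aeval (pt T φ) (MvPolynomial.C a) =
        φ (H946.bc ℂ RatK (dh (sb T (MvPolynomial.C a))))
      rw [h1, h2, bc_CC, h3, MvPolynomial.aeval_C]
    · intro i
      change MvPolynomial.aeval (pt T φ) (MvPolynomial.X i) =
        φ (H946.bc ℂ RatK (dh (sb T (MvPolynomial.X i))))
      rw [MvPolynomial.aeval_X]
      rfl
  exact congrArg (fun ψ : R3 →+* E => ψ Q) h

lemma pt_ne_zero {T S : Matrix (Fin 3) (Fin 3) ℂ} (hTS : T * S = 1)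
    (φ : RatK[X][X] →ₐ[RatK] E) : pt T φ ≠ 0 := by
  intro h0
  have h1 : MvPolynomial.aeval (pt T φ) (sb S (MvPolynomial.X 0)) = 1 := by
    rw [aeval_pt, sb_inv (mul_eq_one_comm.mp hTS)]
    have h2 : dh (MvPolynomial.X 0) = 1 := by simp [dh]
    rw [h2, map_one, map_one]
  rw [h0, sb_X, map_sum] at h1
  simp at h1

omit [Algebra ℂ E] [IsScalarTower ℂ RatK E] in
lemma bc_quad (A : Matrix (Fin 3) (Fin 3) ℂ[X][X]) (x : Fin 3 → RatK)
    (φ : RatK[X][X] →ₐ[RatK] E) :
    φ (cx x ⬝ᵥ ((A.map (H946.bc ℂ RatK)) *ᵥ cx x)) =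
      ∑ i, ∑ j, algebraMap RatK E (x i * x j) * φ (H946.bc ℂ RatK (A i j)) := by
  simp only [dotProduct, Matrix.mulVec, Matrix.map_apply, Finset.mul_sum, map_sum, map_mul]
  have h1 : ∀ i, φ (cx x i) = algebraMap RatK E (x i) := fun i => φ.commutes (x i)
  refine Finset.sum_congr rfl fun i _ => Finset.sum_congr rfl fun j _ => ?_
  rw [h1, h1]
  ring

end Vale.Agent.P287.H597
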