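import Vale.Agent.P287.H597.OddSkel
import Vale.Agent.P287.H597.OddGlue
import Vale.Agent.P287.CommonZero

/-!
The odd theta theorem: assembly of the blocks.
-/

namespace Vale.Agent.P287.H597

open Polynomial Matrix Module Vale.Agent.P287 Vale.Agent.P287.Theta Vale.Agent.P287.Odd

/-- The hypothesis on the square root of `f` on the curve `g = 0`. -/
def GoodRoot (f g : R3) : Prop :=
  ∃ (e : ℕ) (s c : R3), c.IsHomogeneous e ∧ g ∣ c ^ 2 * f - s ^ 2 ∧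
    ∀ z : Fin 3 → ℂ, z ≠ 0 → ¬ (MvPolynomial.aeval z c = 0 ∧ MvPolynomial.aeval z f = 0 ∧
      MvPolynomial.aeval z g = 0)

lemma aeval_zero_of_homog {p : R3} {n : ℕ} (hp : p.IsHomogeneous n) (hn : n ≠ 0) :
    MvPolynomial.aeval (0 : Fin 3 → ℂ) p = 0 := by
  rw [MvPolynomial.aeval_zero, MvPolynomial.constantCoeff_eq, hp.coeff_eq_zero]
  · simp
  · simpa using hn.symm

/-- Two curves meet. -/
lemma exists_zero_pair {f g : R3} {n d : ℕ} (hf : f.IsHomogeneous n) (hn : n ≠ 0)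
    (hg : g.IsHomogeneous d) (hd : d ≠ 0) : ∃ z : Fin 3 → ℂ, z ≠ 0 ∧
      MvPolynomial.aeval z f = 0 ∧ MvPolynomial.aeval z g = 0 := by
  obtain ⟨z, hz, h⟩ := exists_common_zero (k := ℂ) (n := 3) (r := 2) (by norm_num) ![f, g] (by
    intro i
    fin_cases i
    · exact aeval_zero_of_homog hf hn
    · exact aeval_zero_of_homog hg hd)
  exact ⟨z, hz, h 0, h 1⟩

lemma not_dvd_of_good {f g c : R3} {n d : ℕ} (hf : f.IsHomogeneous n) (hn : n ≠ 0)
    (hg : g.IsHomogeneous d) (hd : d ≠ 0)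
    (h : ∀ z : Fin 3 → ℂ, z ≠ 0 → ¬ (MvPolynomial.aeval z c = 0 ∧ MvPolynomial.aeval z f = 0 ∧
      MvPolynomial.aeval z g = 0)) : ¬ g ∣ c := by
  rintro ⟨q, rfl⟩
  obtain ⟨z, hz, h1, h2⟩ := exists_zero_pair hf hn hg hd
  exact h z hz ⟨by rw [map_mul, h2, zero_mul], h1, h2⟩

/-- The point of the second fibration. -/
theorem exists_point (hT : StmtT) (hJ0 : StmtJ0) (hD : StmtD) (hBC : StmtBC) (hK : StmtK)
    {M : Matrix (Fin 4) (Fin 4) R3} {g : R3} {m : ℕ} {A : Matrix (Fin 3) (Fin 3) R3} {c c₁ : ℂ}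
    {b : Fin 3 → R3} (hM : FibShape M)
    (hs : SmoothTernary M.det) (hδ0 : M.adjugate 0 0 ≠ 0) (hm : 2 ≤ m)
    (hg : g.IsHomogeneous (2 * m + 1)) (hgi : Irreducible g) (hgf : ¬ g ∣ M.det)
    (hgood : GoodRoot M.det g) (hev : EvenSections m g M.det) (hc : c ≠ 0) (hA : A.IsSymm)
    (hA2 : ∀ i j, (A i j).IsHomogeneous 2) (hdet : A.det = MvPolynomial.C c * M.det)
    (hc₁ : c₁ ≠ 0) (hb : ∀ i, (b i).IsHomogeneous (m + 4))
    (hbb : ∀ i j, M.det ∣ b i * b j - MvPolynomial.C c₁ * (M.adjugate 0 0 * g * A.adjugate i j))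
    (hb0 : ∃ i, ¬ M.det ∣ b i) :
    ∃ (s : RatK) (t : Fin 3 → RatK), (t ≠ 0 ∨ s ≠ 0) ∧
      s ^ 2 = ∑ i, ∑ j, MvPolynomial.aeval t (A i j) * (tvec i * tvec j) := by
  have hfi := irreducible_of_smooth hM.det (by norm_num) hs
  obtain ⟨e, s, c₀, hc₀, hd, hH⟩ := hgood
  have hgc : ¬ g ∣ c₀ := not_dvd_of_good hM.det (by norm_num) hg (by omega) hH
  obtain ⟨T, S, v, ν, dν, hTS, hv, hCu, hQu, hIso⟩ := hT m g M.det A c (by omega) hM.det hfi hs
    hg hgi hgf hA hA2 hc hdet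
  obtain ⟨J, hJ, hHalf⟩ := hJ0 m g M.det T S v c hTS hv hc hm hM.det hs hg hgi hgf
    ⟨e, s, c₀, hc₀, hgc, hd⟩ hCu
  have hE := hD M g m A c c₁ b T S v J hM hs hδ0 hm hg hgi hgf hc hA hA2 hdet hc₁ hb hbb hb0 hTS
    hv hCu hQu hHalf hJ hev
  -- the square root
  obtain ⟨r, hr⟩ := IsAlgClosed.exists_pow_nat_eq (-c) two_pos
  have hr0 : r ≠ 0 := by
    rintro rfl
    apply hc
    rw [← neg_eq_zero, ← hr]
    ring
  set g' : ℂ[X][X] := C (C v) * dh (sb T g) with hg'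
  set f' : ℂ[X][X] := C (C (-c)) * dh (sb T M.det) with hf'
  set A' : Matrix (Fin 3) (Fin 3) ℂ[X][X] := A.map fun P => dh (sb T P) with hA'
  set s₀ : ℂ[X][X] := C (C r) * dh (sb T s) with hs₀
  have hdiv : g' ∣ dh (sb T c₀) ^ 2 * f' - s₀ ^ 2 := by
    have h1 : dh (sb T c₀) ^ 2 * f' - s₀ ^ 2 =
        C (C (-c)) * (dh (sb T c₀) ^ 2 * dh (sb T M.det) - dh (sb T s) ^ 2) := by
      rw [hf', hs₀, mul_pow, ← C_pow, ← C_pow, hr]
      ring
    have h2 : dh (sb T g) ∣ dh (sb T c₀) ^ 2 * dh (sb T M.det) - dh (sb T s) ^ 2 := by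
      have := dh_dvd (map_dvd (sb T) hd)
      rwa [map_sub, map_mul, map_pow, map_pow, map_sub, map_mul, map_pow, map_pow] at this
    obtain ⟨q, hq⟩ := h2
    rw [h1, hq]
    refine ⟨C (C (v⁻¹)) * (C (C (-c)) * q), ?_⟩
    rw [hg']
    have h3 : (C (C v) * C (C (v⁻¹)) : ℂ[X][X]) = 1 := by
      rw [← C_mul, ← C_mul, mul_inv_cancel₀ hv, C_1, C_1]
    linear_combination (-(C (C (-c)) * (dh (sb T g) * q))) * h3
  have hs₀J : s₀ ∈ J := by
    rw [hJ]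
    have h1 : s₀ ^ 2 = dh (sb T c₀) ^ 2 * f' - (dh (sb T c₀) ^ 2 * f' - s₀ ^ 2) := by ring
    rw [h1]
    refine sub_mem (Ideal.mul_mem_left _ _ (Ideal.subset_span (Set.mem_insert _ _))) ?_
    exact Ideal.mem_of_dvd _ hdiv (Ideal.subset_span
      (Set.mem_insert_of_mem _ (Set.mem_singleton _)))
  -- the base change
  have hdivβ : β (dh (sb T c₀) ^ 2 * f' - s₀ ^ 2) = β (dh (sb T c₀)) ^ 2 * β f' - β s₀ ^ 2 := by
    rw [map_sub β, map_mul β (dh (sb T c₀) ^ 2) f', map_pow β, map_pow β]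
  have hchar : CharZero RatK := charZero_of_injective_algebraMap (algebraMap ℂ RatK).injective
  obtain ⟨E, _, _, φ, s', t', hfin, hodd, hφg, hs', ht'⟩ := hK RatK m (by omega) (β g') (β f')
    (A'.map β) (J.map β) tvec (β ∘ ν) dν (β s₀) (β (dh (sb T c₀))) (hBC.curve m g' f' hCu)
    (hBC.half m g' f' J hHalf) (hBC.quadrics g' f' A' hQu) hIso
    (Ideal.mem_map_of_mem _ hs₀J) (by
      rw [← hdivβ]
      exact map_dvd β hdiv) (by
      rw [hBC.finrank]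
      exact hE)
  let : Algebra ℂ E := ((algebraMap RatK E).comp (algebraMap ℂ RatK)).toAlgebra
  have : IsScalarTower ℂ RatK E := IsScalarTower.of_algebraMap_eq fun _ => rfl
  have hquad : φ (cx tvec ⬝ᵥ ((A'.map β) *ᵥ cx tvec)) =
      ∑ i, ∑ j, algebraMap RatK E (tvec i * tvec j) * MvPolynomial.aeval (pt T φ) (A i j) := by
    rw [bc_quad]
    simp only [aeval_pt]
    rfl
  have hcc : ∀ a : ℂ, φ (β (C (C a))) = algebraMap ℂ E a := by
    intro a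
    rw [bc_CC, IsScalarTower.algebraMap_apply ℂ RatK E]
    exact φ.commutes (algebraMap ℂ RatK a)
  have hrE : algebraMap ℂ E r ≠ 0 := (_root_.map_ne_zero _).2 hr0
  have hrE2 : algebraMap ℂ E r ^ 2 = algebraMap ℂ E (-c) := by rw [← map_pow, hr]
  obtain ⟨s'', t'', h1, h2⟩ := H69.point_of_residue A hA2 (g := g) (f := M.det) (c₀ := c₀)
    (n := 2 * m + 1) (d := 3) (e := e) hgi.prime hg hM.det hc₀ hgc hH hodd (pt T φ)
    (pt_ne_zero hTS φ) (by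
      rw [aeval_pt]
      have h3 : φ (β g') = algebraMap ℂ E v * φ (β (dh (sb T g))) := by
        rw [hg', map_mul, map_mul, hcc]
      rw [hφg] at h3
      exact (mul_eq_zero.1 h3.symm).resolve_left ((_root_.map_ne_zero _).2 hv))
    (s' / algebraMap ℂ E r) t' (by
      have h3 : φ (β f') = algebraMap ℂ E (-c) * MvPolynomial.aeval (pt T φ) M.det := by
        rw [hf', map_mul, map_mul, hcc, aeval_pt]
      rw [div_pow, hs', map_mul φ, hquad, h3, hrE2,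
        div_eq_iff (by rw [← hrE2]; exact pow_ne_zero _ hrE)]
      ring) (by
      rw [ht', map_mul φ, hquad, map_pow φ, aeval_pt])
  exact ⟨s'', t'', h1, h2⟩

/-- The assembly of the blocks. -/
theorem odd_core_of (hV : StmtV) (hT : StmtT) (hJ0 : StmtJ0) (hD : StmtD) (hBC : StmtBC)
    (hK : StmtK) {M : Matrix (Fin 4) (Fin 4) R3} {g : R3} {m : ℕ} (hM : FibShape M)
    (hs : SmoothTernary M.det) (hδ0 : M.adjugate 0 0 ≠ 0) (hm : 2 ≤ m)
    (hg : g.IsHomogeneous (2 * m + 1)) (hgi : Irreducible g)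
    (hgood : GoodRoot M.det g) (hev : EvenSections m g M.det) :
    (∃ v : Fin 4 → RatK, v ≠ 0 ∧ v ⬝ᵥ (M.map (MvPolynomial.aeval tvec)) *ᵥ v = 0) ∨
    ∃ (A : Matrix (Fin 3) (Fin 3) R3) (c : ℂ) (l : RatK)
      (φ : (Fin 4 → RatK) ≃ₗ[RatK] (RatK × (Fin 3 → RatK))),
      c ≠ 0 ∧ A.IsSymm ∧ (∀ i j, (A i j).IsHomogeneous 2) ∧ A.det = MvPolynomial.C c * M.det ∧
      (∀ v, (φ v).1 ^ 2 - ∑ i, ∑ j, MvPolynomial.aeval tvec (A i j) * ((φ v).2 i * (φ v).2 j) =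
        l * (v ⬝ᵥ (M.map (MvPolynomial.aeval tvec)) *ᵥ v)) ∧
      ∃ (s : RatK) (t : Fin 3 → RatK), (t ≠ 0 ∨ s ≠ 0) ∧
        s ^ 2 = ∑ i, ∑ j, MvPolynomial.aeval t (A i j) * (tvec i * tvec j) := by
  have hfi := irreducible_of_smooth hM.det (by norm_num) hs
  have hgf : ¬ g ∣ M.det := by
    rintro ⟨q, hq⟩
    rcases hfi.isUnit_or_isUnit hq with h | h
    · exact hgi.not_isUnit h
    · obtain ⟨q', hq'⟩ := h.exists_right_inv
      have hq0 : q ≠ 0 := h.ne_zero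
      have hq0' : q' ≠ 0 := by
        rintro rfl
        rw [mul_zero] at hq'
        exact zero_ne_one hq'
      have h1 := MvPolynomial.totalDegree_mul_of_isDomain hq0 hq0'
      rw [hq', MvPolynomial.totalDegree_one] at h1
      have h2 := MvPolynomial.totalDegree_mul_of_isDomain hgi.ne_zero hq0
      rw [← hq, hg.totalDegree hgi.ne_zero, hM.det.totalDegree hfi.ne_zero] at h2
      omega
  obtain ⟨e, s, c₀, hc₀, hd, hH⟩ := hgood
  have hgc : ¬ g ∣ c₀ := not_dvd_of_good hM.det (by norm_num) hg (by omega) hH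
  rcases hV M g m hM hs hδ0 hm hg hgi hgf ⟨e, s, c₀, hc₀, hgc, hd⟩ with h |
    ⟨A, c, c₁, b, l, φ, hc, hA, hA2, hdet, hc₁, hb, hbb, hb0, hφ⟩
  · exact Or.inl h
  · exact Or.inr ⟨A, c, l, φ, hc, hA, hA2, hdet, hφ, exists_point hT hJ0 hD hBC hK hM hs hδ0 hm hg
      hgi hgf ⟨e, s, c₀, hc₀, hd, hH⟩ hev hc hA hA2 hdet hc₁ hb hbb hb0⟩

end Vale.Agent.P287.H597
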