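import Vale.Agent.P287.Mv.Spec
import Vale.Agent.P287.Theta.LinChange
import Vale.Agent.P287.Theta.LocalNorm

/-!
The moving lemma for the odd theorem: an element of the ideal of the conjugate curve which
generates it at the ramification points.
-/

namespace Vale.Agent.P287.H597

open MvPolynomial Vale.Agent.P287.Theta Vale.Agent.P287.H925

/-- `a`, `b`, `h` with `g h = a² - b² f`, of the degrees for `j`. -/
structure Lk (f g c s : P3) (n j : ℕ) (a b h : P3) : Prop where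
  ha : a.IsHomogeneous (n + j)
  hb : b.IsHomogeneous (n + j - 3)
  hh : h.IsHomogeneous (n + 2 * j)
  dvd : g ∣ c * a - s * b
  norm : a ^ 2 - b ^ 2 * f = g * h

variable {f g c s : P3} {n e : ℕ}

lemma homog_quot {p q : P3} {m k : ℕ} (hp : p.IsHomogeneous m) (hp0 : p ≠ 0)
    (h : (p * q).IsHomogeneous (m + k)) : q.IsHomogeneous k := by
  by_cases hq : q = 0
  · rw [hq]
    exact isHomogeneous_zero _ _ _
  · obtain ⟨l, hl, hq'⟩ := degree_le_of_mul hp h (mul_ne_zero hp0 hq)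
    have : l = k := by omega
    rwa [this] at hq'

/-- the bilinear form of the norm -/
lemma norm_dvd (hg : Prime g) (hgc : ¬ g ∣ c) (hsq : g ∣ c ^ 2 * f - s ^ 2) {a b a' b' : P3}
    (h : g ∣ c * a - s * b) (h' : g ∣ c * a' - s * b') : g ∣ a * a' - b * b' * f := by
  have h1 : g ∣ c ^ 2 * (a * a' - b * b' * f) := by
    have h2 : c ^ 2 * (a * a' - b * b' * f) = (c * a - s * b) * (c * a') + (s * b) * (c * a' - s * b')
        - (c ^ 2 * f - s ^ 2) * (b * b') := by ring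
    rw [h2]
    exact dvd_sub (dvd_add (h.mul_right _) (h'.mul_left _)) (hsq.mul_right _)
  exact (hg.dvd_or_dvd h1).resolve_left fun h2 => hgc (hg.dvd_of_dvd_pow h2)

/-- a divisibility in the chart can be lifted -/
lemma dvd_of_cr {p q : P3} {d e : ℕ} (hp : p.IsHomogeneous d) (hpp : Prime p) (hX : ¬ p ∣ X 0)
    (hq : q.IsHomogeneous e) (h : cr p ∣ cr q) : p ∣ q := by
  obtain ⟨s, hs⟩ := h
  obtain ⟨m, hm⟩ := exists_homogenisation (crTo s)
  obtain ⟨S, hS, hS'⟩ := hm (m + e) (by omega)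
  have hcS : cr S = s := by
    rw [cr, AlgHom.comp_apply, hS', crInv_crTo]
  have h1 : p * S - X 0 ^ (d + m) * q = 0 := by
    have h2 : (X 0 ^ (d + m) * q).IsHomogeneous (d + (m + e)) := by
      have := ((isHomogeneous_X ℂ (0 : Fin 3)).pow (d + m)).mul hq
      have e1 : 1 * (d + m) + e = d + (m + e) := by ring
      rwa [e1] at this
    apply cr_inj ((hp.mul hS).sub h2)
    rw [map_sub, map_mul, map_mul, map_pow, cr_X0, one_pow, one_mul, hcS, hs, sub_self]
  have h2 : p ∣ X 0 ^ (d + m) * q := ⟨S, (sub_eq_zero.1 h1).symm⟩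
  exact (hpp.dvd_or_dvd h2).resolve_left fun h3 => hX (hpp.dvd_of_dvd_pow h3)

/-- The statement at one point with `z 0 ≠ 0`. -/
lemma point_aux (hf : f.IsHomogeneous 6) (hs : SmoothP f) (hg : g.IsHomogeneous n)
    (hgp : Prime g) (hc : c.IsHomogeneous e) (hgc : ¬ g ∣ c) (hsh : s.IsHomogeneous (e + 3))
    (hsq : g ∣ c ^ 2 * f - s ^ 2) {z : Fin 3 → ℂ} (hz : z 0 ≠ 0) (hfz : eval z f = 0)
    (hgz : eval z g = 0) :
    ∃ J, ∀ j ≥ J, ∃ a b h, Lk f g c s n j a b h ∧ eval z h ≠ 0 := by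
  have hX : ¬ g ∣ X 0 := by
    rintro ⟨q, hq⟩
    apply hz
    have h1 := congrArg (eval z) hq
    rw [eval_X, map_mul, hgz, zero_mul] at h1
    exact h1
  have hgp' : Prime (cr g) := (MulEquiv.prime_iff crEquiv.toMulEquiv).2 (prime_dehom hg hgp hX)
  have key : ∀ {d : ℕ} {p : P3}, p.IsHomogeneous d →
      eval z p = z 0 ^ d * Polynomial.evalEval (z 1 / z 0) (z 2 / z 0) (cr p) := by
    intro d p hp
    rw [evalEval_cr, eval_eq_aeval, eval_eq_aeval, ← aeval_scale hp]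
    congr 2
    funext i
    fin_cases i
    · simp
    · simp [mul_div_cancel₀ _ hz]
    · simp [mul_div_cancel₀ _ hz]
  have zero : ∀ {d : ℕ} {p : P3}, p.IsHomogeneous d → eval z p = 0 →
      Polynomial.evalEval (z 1 / z 0) (z 2 / z 0) (cr p) = 0 := by
    intro d p hp h
    rw [key hp] at h
    exact (mul_eq_zero.mp h).resolve_left (pow_ne_zero _ hz)
  have hgc' : ¬ cr g ∣ cr c := fun h => hgc (dvd_of_cr hg hgp hX hc h)
  obtain ⟨t, ht⟩ := hsq
  have hrel : cr c ^ 2 * cr f = (- cr s) ^ 2 + cr g * cr t := by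
    have h1 : cr (c ^ 2 * f - s ^ 2) = cr (g * t) := by rw [ht]
    rw [map_sub, map_mul, map_pow, map_pow, map_mul] at h1
    linear_combination h1
  obtain ⟨α, α', u, h1, h2, h3⟩ := local_norm (cr f) (cr g) (- cr s) (cr t) (cr c) hgp' hrel hgc'
    (z 1 / z 0) (z 2 / z 0) (zero hf hfz) (zero hg hgz) (smooth_cr hf hs _ _)
  obtain ⟨m₁, hm₁⟩ := exists_homogenisation (crTo α)
  obtain ⟨m₂, hm₂⟩ := exists_homogenisation (crTo α')
  refine ⟨m₁ + m₂ + 3, fun j hj => ?_⟩
  obtain ⟨a, ha, ha'⟩ := hm₁ (n + j) (by omega)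
  obtain ⟨b, hb, hb'⟩ := hm₂ (n + j - 3) (by omega)
  have hca : cr a = α := by rw [cr, AlgHom.comp_apply, ha', crInv_crTo]
  have hcb : cr b = α' := by rw [cr, AlgHom.comp_apply, hb', crInv_crTo]
  have hdvd : g ∣ c * a - s * b := by
    have h4 := hc.mul ha
    have h5 := hsh.mul hb
    have e1 : e + 3 + (n + j - 3) = e + (n + j) := by omega
    rw [e1] at h5
    refine dvd_of_cr hg hgp hX (h4.sub h5) ?_
    rw [map_sub, map_mul, map_mul, hca, hcb]
    refine h1.trans (dvd_of_eq ?_)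
    ring
  obtain ⟨h, hh⟩ := norm_dvd hgp hgc ⟨t, ht⟩ hdvd hdvd
  have hhh : h.IsHomogeneous (n + 2 * j) := by
    refine homog_quot hg hgp.ne_zero (k := n + 2 * j) ?_
    rw [← hh]
    have h1 := ha.mul ha
    have h2 := (hb.mul hb).mul hf
    have e1 : n + j + (n + j) = n + (n + 2 * j) := by ring
    have e2 : n + j - 3 + (n + j - 3) + 6 = n + (n + 2 * j) := by omega
    rw [e1] at h1
    rw [e2] at h2
    exact h1.sub h2
  refine ⟨a, b, h, ⟨ha, hb, hhh, hdvd, by rw [← hh]; ring⟩, ?_⟩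
  have hch : cr h = u := by
    apply mul_left_cancel₀ hgp'.ne_zero
    rw [← h2, ← map_mul, ← hh, map_sub, map_mul, map_mul, map_mul, hca, hcb]
    ring
  rw [key hhh, hch]
  exact mul_ne_zero (pow_ne_zero _ hz) h3

/-- The statement at one point. -/
lemma point_lk (hf : f.IsHomogeneous 6) (hs : SmoothP f) (hg : g.IsHomogeneous n)
    (hgp : Prime g) (hc : c.IsHomogeneous e) (hgc : ¬ g ∣ c) (hsh : s.IsHomogeneous (e + 3))
    (hsq : g ∣ c ^ 2 * f - s ^ 2) {z : Fin 3 → ℂ} (hz : z ≠ 0) (hfz : eval z f = 0)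
    (hgz : eval z g = 0) :
    ∃ J, ∀ j ≥ J, ∃ a b h, Lk f g c s n j a b h ∧ eval z h ≠ 0 := by
  obtain ⟨i, hi⟩ : ∃ i, z i ≠ 0 := by
    by_contra hcon
    push Not at hcon
    exact hz (funext hcon)
  obtain ⟨A, hAA, hAz⟩ : ∃ A : Matrix (Fin 3) (Fin 3) ℂ, A * A = 1 ∧ (A.mulVec z) 0 ≠ 0 := by
    refine ⟨(Equiv.swap 0 i).permMatrix ℂ, ?_, ?_⟩
    · rw [← Matrix.permMatrix_mul, Equiv.swap_mul_self, Matrix.permMatrix_one]
    · rw [Matrix.permMatrix_mulVec, Function.comp_apply, Equiv.swap_apply_left]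
      exact hi
  have hA : IsUnit A.det := by
    have h1 := congrArg Matrix.det hAA
    rw [Matrix.det_mul, Matrix.det_one] at h1
    exact IsUnit.of_mul_eq_one _ h1
  have hAl : ∀ p : P3, lin A (lin A p) = p := fun p => by rw [lin_lin, hAA, lin_one]
  have hev : ∀ p : P3, eval (A.mulVec z) (lin A p) = eval z p := fun p => by
    rw [eval_lin, Matrix.mulVec_mulVec, hAA, Matrix.one_mulVec]
  obtain ⟨J, hJ⟩ := point_aux (lin_homogeneous A hf) (SmoothP.lin hA hs) (lin_homogeneous A hg)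
    ((prime_lin hA).mpr hgp) (lin_homogeneous A hc) (fun h => hgc ((lin_dvd_lin hA).mp h))
    (lin_homogeneous A hsh) (by
      rw [← map_pow, ← map_mul, ← map_pow, ← map_sub]
      exact (lin_dvd_lin hA).mpr hsq) hAz (by rw [hev, hfz]) (by rw [hev, hgz])
  refine ⟨J, fun j hj => ?_⟩
  obtain ⟨a, b, h, L, hh⟩ := hJ j hj
  refine ⟨lin A a, lin A b, lin A h, ⟨lin_homogeneous A L.ha, lin_homogeneous A L.hb,
    lin_homogeneous A L.hh, ?_, ?_⟩, ?_⟩
  · rw [← lin_dvd_lin hA, map_sub, map_mul, map_mul, hAl, hAl]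
    exact L.dvd
  · have h1 := congrArg (lin A) L.norm
    rw [map_sub, map_mul, map_pow, map_pow, map_mul, hAl, hAl] at h1
    exact h1
  · rw [eval_lin]
    exact hh

/-- Finitely many points. -/
lemma points_lk (hf : f.IsHomogeneous 6) (hs : SmoothP f) (hg : g.IsHomogeneous n)
    (hgp : Prime g) (hc : c.IsHomogeneous e) (hgc : ¬ g ∣ c) (hsh : s.IsHomogeneous (e + 3))
    (hsq : g ∣ c ^ 2 * f - s ^ 2) (S : Finset (Fin 3 → ℂ))
    (hS : ∀ z ∈ S, z ≠ 0 ∧ eval z f = 0 ∧ eval z g = 0) :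
    ∃ J, ∀ j ≥ J, ∃ a b h, Lk f g c s n j a b h ∧ ∀ z ∈ S, eval z h ≠ 0 := by
  classical
  induction S using Finset.induction_on with
  | empty =>
    refine ⟨0, fun j _ => ⟨0, 0, 0, ⟨isHomogeneous_zero _ _ _, isHomogeneous_zero _ _ _,
      isHomogeneous_zero _ _ _, by simp, by simp⟩, by simp⟩⟩
  | insert z S hzS ih =>
    obtain ⟨J₁, h₁⟩ := ih fun z hz => hS z (Finset.mem_insert_of_mem hz)
    obtain ⟨hz0, hfz, hgz⟩ := hS z (Finset.mem_insert_self z S)
    obtain ⟨J₂, h₂⟩ := point_lk hf hs hg hgp hc hgc hsh hsq hz0 hfz hgz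
    refine ⟨max (max J₁ J₂) 3, fun j hj => ?_⟩
    obtain ⟨a₁, b₁, k₁, L₁, e₁⟩ := h₁ j (by omega)
    obtain ⟨a₂, b₂, k₂, L₂, e₂⟩ := h₂ j (by omega)
    obtain ⟨k₃, hk₃⟩ := norm_dvd hgp hgc hsq L₁.dvd L₂.dvd
    have hk₃h : k₃.IsHomogeneous (n + 2 * j) := by
      refine homog_quot hg hgp.ne_zero (k := n + 2 * j) ?_
      rw [← hk₃]
      have h1 := L₁.ha.mul L₂.ha
      have h2 := (L₁.hb.mul L₂.hb).mul hf
      have e1 : n + j + (n + j) = n + (n + 2 * j) := by ring
      have e2 : n + j - 3 + (n + j - 3) + 6 = n + (n + 2 * j) := by omega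
      rw [e1] at h1
      rw [e2] at h2
      exact h1.sub h2
    -- the polynomial in `λ`
    let P : (Fin 3 → ℂ) → Polynomial ℂ := fun y => Polynomial.C (eval y k₁) +
      Polynomial.C (2 * eval y k₃) * Polynomial.X + Polynomial.C (eval y k₂) * Polynomial.X ^ 2
    have hP : ∀ y ∈ insert z S, P y ≠ 0 := by
      intro y hy h0
      rcases Finset.mem_insert.mp hy with rfl | hy
      · have h3 := congrArg (Polynomial.coeff · 2) h0
        simp only [P, Polynomial.coeff_add, Polynomial.coeff_C_mul, Polynomial.coeff_X_pow,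
          Polynomial.coeff_X, Polynomial.coeff_C, Polynomial.coeff_zero] at h3
        norm_num at h3
        exact e₂ h3
      · have h3 := congrArg (Polynomial.coeff · 0) h0
        simp [P] at h3
        exact e₁ y hy h3
    have hprod : (∏ y ∈ insert z S, P y) ≠ 0 := Finset.prod_ne_zero_iff.mpr hP
    obtain ⟨l, hl⟩ : ∃ l : ℂ, (∏ y ∈ insert z S, P y).eval l ≠ 0 := by
      by_contra hcon
      push Not at hcon
      exact hprod (Polynomial.funext fun x => by rw [hcon x, Polynomial.eval_zero])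
    refine ⟨a₁ + C l * a₂, b₁ + C l * b₂, k₁ + C (2 * l) * k₃ + C (l ^ 2) * k₂, ⟨?_, ?_, ?_, ?_, ?_⟩, ?_⟩
    · exact L₁.ha.add (L₂.ha.C_mul l)
    · exact L₁.hb.add (L₂.hb.C_mul l)
    · exact (L₁.hh.add (hk₃h.C_mul _)).add (L₂.hh.C_mul _)
    · have h1 : c * (a₁ + C l * a₂) - s * (b₁ + C l * b₂) =
          (c * a₁ - s * b₁) + C l * (c * a₂ - s * b₂) := by ring
      rw [h1]
      exact dvd_add L₁.dvd (L₂.dvd.mul_left _)
    · rw [C_mul, C_pow, map_ofNat]
      linear_combination L₁.norm + 2 * C l * hk₃ + C l ^ 2 * L₂.norm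
    · intro y hy
      rw [Polynomial.eval_prod, Finset.prod_ne_zero_iff] at hl
      have h1 := hl y hy
      intro h0
      apply h1
      simp only [P, Polynomial.eval_add, Polynomial.eval_mul, Polynomial.eval_C, Polynomial.eval_X,
        Polynomial.eval_pow]
      simp only [map_add, map_mul, eval_C] at h0
      linear_combination h0

theorem stmt1_of (hZ : Mv.StmtZ) : Mv.Stmt1 := by
  classical
  intro f g c s n e hf hs hg hn hgi hgf hc hgc hsh hsq N
  have hgp := hgi.prime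
  have hfp : Prime f := prime_of_smoothP hf (by norm_num) hs
  have hfg : ¬ f ∣ g := by
    rintro ⟨q, hq⟩
    rcases hgi.isUnit_or_isUnit hq with h | h
    · exact hfp.not_isUnit h
    · obtain ⟨q', hq'⟩ := h.exists_right_inv
      exact hgf ⟨q', by rw [hq, mul_assoc, hq', mul_one]⟩
  have hfX : ¬ f ∣ X 0 := by
    rintro ⟨q, hq⟩
    have h1 : (f * q).IsHomogeneous 1 := hq ▸ isHomogeneous_X _ _
    obtain ⟨l, hl, -⟩ := degree_le_of_mul hf h1 (hq ▸ X_ne_zero 0)
    omega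
  obtain ⟨S, hS, hS'⟩ := hZ f g 6 n hf hg hfp.irreducible hfg
  obtain ⟨J, hJ⟩ := points_lk hf hs hg hgp hc hgc hsh hsq
    (S.filter fun z => eval z f = 0 ∧ eval z g = 0) (fun z hz => by
      rw [Finset.mem_filter] at hz
      exact ⟨hS z hz.1, hz.2⟩)
  obtain ⟨j, hj⟩ : ∃ j, j = J + N + 3 := ⟨_, rfl⟩
  obtain ⟨a, b, h, L, hh⟩ := hJ j (by omega)
  -- no common zeros
  have hzero : ∀ z : Fin 3 → ℂ, z ≠ 0 → eval z f = 0 → eval z g = 0 → eval z h ≠ 0 := by
    intro z hz hfz hgz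
    obtain ⟨z', hz', r, hr, rfl⟩ := hS' z hz (by rw [← eval_eq_aeval]; exact hfz)
      (by rw [← eval_eq_aeval]; exact hgz)
    have hsm : ∀ {d : ℕ} {p : P3}, p.IsHomogeneous d → eval (r • z') p = r ^ d * eval z' p := by
      intro d p hp
      rw [eval_eq_aeval, eval_eq_aeval, ← aeval_scale hp]
      rfl
    rw [hsm hf] at hfz
    rw [hsm hg] at hgz
    rw [hsm L.hh]
    refine mul_ne_zero (pow_ne_zero _ hr) (hh z' ?_)
    rw [Finset.mem_filter]
    exact ⟨hz', (mul_eq_zero.mp hfz).resolve_left (pow_ne_zero _ hr),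
      (mul_eq_zero.mp hgz).resolve_left (pow_ne_zero _ hr)⟩
  refine ⟨j, by omega, ?_⟩
  by_cases hfb : f ∣ b
  · obtain ⟨r, hr⟩ : ∃ r : P3, r = X 0 ^ (j - 3) := ⟨_, rfl⟩
    have hrh : r.IsHomogeneous (j - 3) := by
      rw [hr]
      exact isHomogeneous_X_pow _ _
    refine ⟨a, b + g * r, h - (2 * (b * r) + g * r ^ 2) * f, by omega, L.ha, ?_, ?_, ?_, ?_, ?_, ?_⟩
    · have h1 := hg.mul hrh
      rw [show n + (j - 3) = n + j - 3 by omega] at h1
      exact L.hb.add h1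
    · have h1 := (L.hb.mul hrh).C_mul 2
      have h2 := hg.mul (hrh.pow 2)
      rw [show n + j - 3 + (j - 3) = n + 2 * j - 6 by omega] at h1
      rw [show n + (j - 3) * 2 = n + 2 * j - 6 by omega] at h2
      have h3 := (h1.add h2).mul hf
      rw [show n + 2 * j - 6 + 6 = n + 2 * j by omega, map_ofNat] at h3
      exact L.hh.sub h3
    · have h1 : c * a - s * (b + g * r) = (c * a - s * b) - g * (s * r) := by ring
      rw [h1]
      exact dvd_sub L.dvd (dvd_mul_right _ _)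
    · linear_combination L.norm
    · intro h1
      have h2 : f ∣ g * r := (dvd_add_right hfb).mp h1
      rcases hfp.dvd_or_dvd h2 with h3 | h3
      · exact hfg h3
      · rw [hr] at h3
        exact hfX (hfp.dvd_of_dvd_pow h3)
    · intro z hz hfz hgz
      rw [← eval_eq_aeval] at hfz hgz ⊢
      rw [map_sub, map_mul, hfz, mul_zero, sub_zero]
      exact hzero z hz hfz hgz
  · refine ⟨a, b, h, by omega, L.ha, L.hb, L.hh, L.dvd, L.norm, hfb, fun z hz hfz hgz => ?_⟩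
    rw [← eval_eq_aeval] at hfz hgz ⊢
    exact hzero z hz hfz hgz

end Vale.Agent.P287.H597
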