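import Vale.Agent.P287.H597.Special
import Vale.Agent.P287.Mv.Spec0

/-!
Specialisation of absolutely irreducible families of forms.
-/

namespace Vale.Agent.P287.H597

open MvPolynomial Vale.Agent.P287.Mv

theorem stmt3 : Stmt3 := by
  intro n G hG hirr
  have hinj : Function.Injective (algebraMap (Polynomial ℂ) EE) := by
    rw [IsScalarTower.algebraMap_eq (Polynomial ℂ) (FractionRing (Polynomial ℂ)) EE]
    exact (algebraMap (FractionRing (Polynomial ℂ)) EE).injective.comp
      (IsFractionRing.injective _ _)
  obtain ⟨d, hd, h⟩ := specialise.{0} hinj hG hirr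
  refine (d.roots.toFinset.finite_toSet).subset fun t ht => ?_
  rw [Finset.mem_coe, Multiset.mem_toFinset, Polynomial.mem_roots hd]
  by_contra hne
  exact ht (h (Polynomial.evalRingHom t) hne)

end Vale.Agent.P287.H597
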