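import Vale.Agent.P287.H597.OddGenus
import Vale.Agent.P287.H597.Stmt1
import Vale.Agent.P287.H597.Stmt3
import Vale.Agent.P287.H69.MoveZ
import Vale.Agent.P287.H69.MoveGenus
import Vale.Agent.P287.Mv.Generic

/-!
The odd theta theorem for every splitting curve of odd degree with a half of odd arithmetic
genus.
-/

namespace Vale.Agent.P287.H597

open MvPolynomial Matrix Vale.Agent.P287.Theta Vale.Agent.P287.H925
  Vale.Agent.P287.H925.NetResult

/-- the value of `lf j μ` at `z`, as a polynomial in `μ` -/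
noncomputable def lfPol (j : ℕ) (z : Fin 3 → ℂ) : Polynomial ℂ :=
  Polynomial.C (z 0 ^ j) + Polynomial.C (z 1 ^ j) * Polynomial.X +
    Polynomial.C (z 2 ^ j) * Polynomial.X ^ 2

lemma eval_lfPol (j : ℕ) (z : Fin 3 → ℂ) (μ : ℂ) :
    (lfPol j z).eval μ = eval z (Mv.lf j μ) := by
  simp only [lfPol, Mv.lf, Polynomial.eval_add, Polynomial.eval_mul, Polynomial.eval_C,
    Polynomial.eval_X, Polynomial.eval_pow, map_add, map_mul, map_pow, eval_X, eval_C]
  ring

lemma lfPol_ne_zero {j : ℕ} {z : Fin 3 → ℂ} (hz : z ≠ 0) : lfPol j z ≠ 0 := by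
  intro h
  apply hz
  funext i
  have h0 := congrArg (Polynomial.coeff · 0) h
  have h1 := congrArg (Polynomial.coeff · 1) h
  have h2 := congrArg (Polynomial.coeff · 2) h
  simp only [lfPol, Polynomial.coeff_add, Polynomial.coeff_C_mul, Polynomial.coeff_X_pow,
    Polynomial.coeff_X, Polynomial.coeff_C, Polynomial.coeff_zero] at h0 h1 h2
  norm_num at h0 h1 h2
  fin_cases i
  · exact h0.1
  · exact h1.1
  · exact h2.1

lemma exists_mu {j : ℕ} (hj : j ≠ 0) {g₀ : P3} (hg₀ : g₀ ≠ 0) (S : Finset (Fin 3 → ℂ))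
    (hS : ∀ z ∈ S, z ≠ 0) :
    ∃ μ : ℂ, μ ≠ 0 ∧ ¬ Mv.lf j μ ∣ g₀ ∧ ∀ z ∈ S, eval z (Mv.lf j μ) ≠ 0 := by
  classical
  obtain ⟨w, hw⟩ : ∃ w : Fin 3 → ℂ, eval w (g₀ * X 1) ≠ 0 := by
    by_contra hcon
    push Not at hcon
    exact mul_ne_zero hg₀ (X_ne_zero 1) (MvPolynomial.funext fun x => by rw [hcon x, map_zero])
  rw [map_mul, eval_X] at hw
  have hw1 : w 1 ≠ 0 := right_ne_zero_of_mul hw
  obtain ⟨P, hP⟩ : ∃ P : Polynomial ℂ, P = aeval ![Polynomial.X, Polynomial.C (w 1),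
    Polynomial.C (w 2)] g₀ := ⟨_, rfl⟩
  have hPe : ∀ x, P.eval x = eval ![x, w 1, w 2] g₀ := by
    intro x
    rw [hP, ← Polynomial.coe_aeval_eq_eval, ← AlgHom.comp_apply, comp_aeval, eval_eq_aeval]
    congr 2
    funext i
    fin_cases i <;> simp
  have hP0 : P ≠ 0 := by
    intro h
    apply left_ne_zero_of_mul hw
    have h1 := hPe (w 0)
    rw [h, Polynomial.eval_zero] at h1
    rw [h1]
    congr 2
    funext i
    fin_cases i <;> rfl
  obtain ⟨F, hF⟩ : ∃ F : Polynomial ℂ, F = Polynomial.X * (∏ z ∈ S, lfPol j z) *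
    ∏ x ∈ P.roots.toFinset, lfPol j ![x, w 1, w 2] := ⟨_, rfl⟩
  have hF0 : F ≠ 0 := by
    rw [hF]
    refine mul_ne_zero (mul_ne_zero Polynomial.X_ne_zero (Finset.prod_ne_zero_iff.mpr fun z hz =>
      lfPol_ne_zero (hS z hz))) (Finset.prod_ne_zero_iff.mpr fun x _ => lfPol_ne_zero ?_)
    intro h
    exact hw1 (congrFun h 1)
  obtain ⟨μ, hμ⟩ : ∃ μ : ℂ, F.eval μ ≠ 0 := by
    by_contra hcon
    push Not at hcon
    exact hF0 (Polynomial.funext fun x => by rw [hcon x, Polynomial.eval_zero])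
  rw [hF, Polynomial.eval_mul, Polynomial.eval_mul, Polynomial.eval_X, Polynomial.eval_prod,
    Polynomial.eval_prod] at hμ
  have hμ1 := left_ne_zero_of_mul hμ
  refine ⟨μ, left_ne_zero_of_mul hμ1, ?_, fun z hz => ?_⟩
  · intro hd
    obtain ⟨x, hx⟩ := IsAlgClosed.exists_pow_nat_eq (-(w 1 ^ j * μ + w 2 ^ j * μ ^ 2))
      (Nat.pos_of_ne_zero hj)
    have h1 : (lfPol j ![x, w 1, w 2]).eval μ = 0 := by
      simp only [lfPol, Polynomial.eval_add, Polynomial.eval_mul, Polynomial.eval_C,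
        Polynomial.eval_X, Polynomial.eval_pow]
      change x ^ j + w 1 ^ j * μ + w 2 ^ j * μ ^ 2 = 0
      rw [hx]
      ring
    have h2 : P.eval x = 0 := by
      rw [hPe]
      obtain ⟨q, hq⟩ := hd
      rw [hq, map_mul, ← eval_lfPol, h1, zero_mul]
    have h3 : x ∈ P.roots.toFinset := by
      rw [Multiset.mem_toFinset, Polynomial.mem_roots hP0]
      exact h2
    exact Finset.prod_ne_zero_iff.mp (right_ne_zero_of_mul hμ) x h3 h1
  · rw [← eval_lfPol]
    exact Finset.prod_ne_zero_iff.mp (right_ne_zero_of_mul hμ1) z hz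

lemma lf_homog (j : ℕ) (μ : ℂ) : (Mv.lf j μ).IsHomogeneous j := by
  rw [Mv.lf]
  have h0 := isHomogeneous_X_pow (R := ℂ) (0 : Fin 3) j
  have h1 := (isHomogeneous_X_pow (R := ℂ) (1 : Fin 3) j).C_mul μ
  have h2 := (isHomogeneous_X_pow (R := ℂ) (2 : Fin 3) j).C_mul (μ ^ 2)
  exact (h0.add h1).add h2

lemma at_pencil (t : ℂ) (g₀ a l g : P3) : Mv.at' t (Mv.pencil g₀ a l g) =
    g₀ + C (2 * t) * (l * a) + C (t ^ 2) * (l ^ 2 * g) := by
  have h : ∀ p : P3, map (Polynomial.evalRingHom t) (map Polynomial.C p) = p := by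
    intro p
    rw [MvPolynomial.map_map]
    have h1 : (Polynomial.evalRingHom t).comp Polynomial.C = RingHom.id ℂ := by
      ext
      simp
    rw [h1, MvPolynomial.map_id]
  have h2 : (Polynomial.evalRingHom t) (2 * Polynomial.X) = 2 * t := by simp
  have h3 : (Polynomial.evalRingHom t) (Polynomial.X ^ 2) = t ^ 2 := by simp
  rw [Mv.at', Mv.pencil, map_add, map_add, RingHom.map_mul (map _) (C _),
    RingHom.map_mul (map _) (C _), h, h, h, map_C, map_C, h2, h3]

lemma pencil_homog {g₀ a l g : P3} {n j : ℕ} (hg₀ : g₀.IsHomogeneous (n + 2 * j))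
    (ha : a.IsHomogeneous (n + j)) (hl : l.IsHomogeneous j) (hg : g.IsHomogeneous n) :
    (Mv.pencil g₀ a l g).IsHomogeneous (n + 2 * j) := by
  have h1 := (hl.mul ha).map (Polynomial.C : ℂ →+* Polynomial ℂ)
  have h2 := ((hl.pow 2).mul hg).map (Polynomial.C : ℂ →+* Polynomial ℂ)
  rw [show j + (n + j) = n + 2 * j by ring] at h1
  rw [show j * 2 + n = n + 2 * j by ring] at h2
  exact ((hg₀.map _).add (h1.C_mul _)).add (h2.C_mul _)

variable {M : Matrix (Fin 4) (Fin 4) (MvPolynomial (Fin 3) ℂ)}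

/-- **The odd theta theorem, numerical form**: if the double plane branched along the discriminant
sextic contains a curve of odd degree and odd arithmetic genus, then the cubic is rational. -/
theorem odd_moving (hM : M.IsSymm)
    (hdeg : ∀ i j, (M i j).IsHomogeneous (1 + wt i + wt j)) (hs : SmoothForm (cubicOf M))
    (hsm : SmoothP M.det) {g : P3} {n : ℕ} (hn : Odd n) (hg : Irreducible g)
    (hgr : g.IsHomogeneous n) {e : ℕ} {s c : P3} (hc : c.IsHomogeneous e) (hgc : ¬ g ∣ c)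
    (hd : g ∣ c ^ 2 * M.det - s ^ 2) {p : ℕ} (hp : Odd p) (hG : H69.HasGenus g c s n p) :
    RationalHypersurface (cubicOf M) := by
  classical
  have hf := det_hom6 hdeg
  have hfp : Prime M.det := prime_of_smoothP hf (by norm_num) hsm
  have hn0 : n ≠ 0 := by
    rintro rfl
    exact (Nat.not_odd_iff_even.mpr Even.zero) hn
  have hgf : ¬ g ∣ M.det := by
    rintro ⟨q, hq⟩
    have h1 := degree_le_of_mul hgr (hq ▸ hf) (hq ▸ hfp.ne_zero)
    obtain ⟨k, hk, hqk⟩ := h1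
    rcases hfp.irreducible.isUnit_or_isUnit hq with h | h
    · exact hg.not_isUnit h
    · have hk0 : k = 0 := by
        obtain ⟨x, hx, hx'⟩ := exists_C_of_isUnit h
        have h2 : q.IsHomogeneous 0 := by
          rw [hx']
          exact isHomogeneous_C _ _
        exact hqk.inj_right h2 h.ne_zero
      obtain ⟨k', hk'⟩ := hn
      omega
  -- `s` is a form
  obtain ⟨s', hs', hss⟩ := exists_homog_root (a := c ^ 2 * M.det) (k := e + 3) hg hgr (by
    have h1 := (hc.pow 2).mul hf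
    rwa [show e * 2 + 6 = 2 * (e + 3) by ring] at h1) hd
  have hd' : g ∣ c ^ 2 * M.det - s' ^ 2 := by
    have h1 : c ^ 2 * M.det - s' ^ 2 = (c ^ 2 * M.det - s ^ 2) + (s - s') * (s + s') := by ring
    rw [h1]
    exact dvd_add hd (hss.mul_right _)
  have hG' : H69.HasGenus g c s' n p := by
    obtain ⟨t₀, ht₀⟩ := hG
    refine ⟨t₀, fun t ht => ?_⟩
    rw [← Rel_congr hss]
    exact ht₀ t ht
  -- the linked curve
  obtain ⟨j, hj, a, b, g₀, hj3, ha, hb, hg₀, hdvd, hnorm, hfb, hgen⟩ :=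
    stmt1_of H69.stmtZ M.det g c s' n e hf hsm hgr hn0 hg hgf hc hgc hs' hd' (n + 5)
  have hb0 : b ≠ 0 := by
    rintro rfl
    exact hfb (dvd_zero _)
  have hgg₀ : ¬ g ∣ g₀ := by
    rintro ⟨q, hq⟩
    obtain ⟨z, hz, h1, h2⟩ := exists_zero_pair hf (by norm_num) hgr hn0
    apply hgen z hz h1 h2
    rw [hq, map_mul, h2, zero_mul]
  have hg₀0 : g₀ ≠ 0 := by
    rintro rfl
    exact hgg₀ (dvd_zero _)
  obtain ⟨S, hS, hS'⟩ := H69.stmtZ M.det b 6 (n + j - 3) hf hb hfp.irreducible hfb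
  obtain ⟨μ, hμ0, hμg, hμS⟩ := exists_mu (j := j) (by omega) hg₀0 S hS
  obtain ⟨l, hl⟩ : ∃ l, l = Mv.lf j μ := ⟨_, rfl⟩
  have hlh : l.IsHomogeneous j := hl ▸ lf_homog j μ
  have hirr := Mv.stmt2 n j M.det g a b g₀ μ hn (by omega) hf hfp.irreducible hgr hg ha hg₀ hgg₀
    hb0 hnorm hμ0 hμg
  rw [← hl] at hirr hμS
  have hfin := stmt3 (n + 2 * j) _ (pencil_homog hg₀ ha hlh hgr) hirr
  -- the good members
  let R : (Fin 3 → ℂ) → Polynomial ℂ := fun z => Polynomial.C (eval z g₀) +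
    Polynomial.C (2 * (eval z l * eval z a)) * Polynomial.X +
      Polynomial.C (eval z l ^ 2 * eval z g) * Polynomial.X ^ 2
  obtain ⟨S₁, hS₁⟩ : ∃ S₁, S₁ = S.filter fun z => eval z M.det = 0 ∧ eval z b = 0 := ⟨_, rfl⟩
  have hR : ∀ z ∈ S₁, R z ≠ 0 := by
    intro z hz h
    rw [hS₁, Finset.mem_filter] at hz
    obtain ⟨hzS, hfz, hbz⟩ := hz
    have h0 := congrArg (Polynomial.coeff · 0) h
    have h2 := congrArg (Polynomial.coeff · 2) h
    simp only [R, Polynomial.coeff_add, Polynomial.coeff_C_mul, Polynomial.coeff_X_pow,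
      Polynomial.coeff_X, Polynomial.coeff_C, Polynomial.coeff_zero] at h0 h2
    norm_num at h0 h2
    rcases h2 with h2 | h2
    · exact hμS z hzS h2
    · refine hgen z (hS z hzS) ?_ ?_ ?_
      · rw [← eval_eq_aeval]; exact hfz
      · rw [← eval_eq_aeval]; exact h2
      · rw [← eval_eq_aeval]; exact h0
  have hprod : (∏ z ∈ S₁, R z) ≠ 0 := Finset.prod_ne_zero_iff.mpr hR
  obtain ⟨t, ht1, ht2⟩ : ∃ t : ℂ, Irreducible (Mv.at' t (Mv.pencil g₀ a l g)) ∧
      (∏ z ∈ S₁, R z).eval t ≠ 0 := by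
    have h1 := hfin.union ((∏ z ∈ S₁, R z).roots.toFinset.finite_toSet)
    obtain ⟨t, ht⟩ := h1.infinite_compl.nonempty
    rw [Set.mem_compl_iff, Set.mem_union, not_or] at ht
    refine ⟨t, not_not.mp ht.1, fun h => ht.2 ?_⟩
    rw [Finset.mem_coe, Multiset.mem_toFinset, Polynomial.mem_roots hprod]
    exact h
  rw [at_pencil] at ht1
  obtain ⟨g', hg'⟩ : ∃ g', g' = g₀ + C (2 * t) * (l * a) + C (t ^ 2) * (l ^ 2 * g) := ⟨_, rfl⟩
  obtain ⟨a', ha'⟩ : ∃ a', a' = a + C t * (g * l) := ⟨_, rfl⟩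
  rw [← hg'] at ht1
  have hg'h : g'.IsHomogeneous (n + 2 * j) := by
    have h1 := (hlh.mul ha).C_mul (2 * t)
    have h2 := ((hlh.pow 2).mul hgr).C_mul (t ^ 2)
    rw [show j + (n + j) = n + 2 * j by ring] at h1
    rw [show j * 2 + n = n + 2 * j by ring] at h2
    rw [hg']
    exact (hg₀.add h1).add h2
  have ha'h : a'.IsHomogeneous (n + j) := by
    rw [ha']
    exact ha.add ((hgr.mul hlh).C_mul t)
  have hnorm' : a' ^ 2 - b ^ 2 * M.det = g * g' := by
    rw [ha', hg', C_mul, C_pow, map_ofNat]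
    linear_combination hnorm
  have hdvd' : g ∣ c * a' - s' * b := by
    have h1 : c * a' - s' * b = (c * a - s' * b) + g * (C t * (c * l)) := by
      rw [ha']
      ring
    rw [h1]
    exact dvd_add hdvd (dvd_mul_right _ _)
  have hga : ¬ g ∣ a' := by
    intro h
    have h1 : g ∣ b ^ 2 * M.det := by
      have h2 : b ^ 2 * M.det = a' ^ 2 - g * g' := by linear_combination -hnorm'
      rw [h2]
      exact dvd_sub (h.pow two_ne_zero) (dvd_mul_right _ _)
    have h3 : g ∣ b := by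
      rcases hg.prime.dvd_or_dvd h1 with h4 | h4
      · exact hg.prime.dvd_of_dvd_pow h4
      · exact absurd h4 hgf
    have h4 : g ∣ a := by
      have h5 : a = a' - g * (C t * l) := by rw [ha']; ring
      rw [h5]
      exact dvd_sub h (dvd_mul_right _ _)
    obtain ⟨a₁, ha₁⟩ := h4
    obtain ⟨b₁, hb₁⟩ := h3
    apply hgg₀
    refine ⟨a₁ ^ 2 - b₁ ^ 2 * M.det, ?_⟩
    apply mul_left_cancel₀ hg.ne_zero
    rw [← hnorm, ha₁, hb₁]
    ring
  have hgb : ¬ g' ∣ b := by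
    rintro ⟨q, hq⟩
    obtain ⟨k, hk, -⟩ := degree_le_of_mul hg'h (hq ▸ hb) (hq ▸ hb0)
    omega
  have hG2 := H69.stmt4 M.det g c s' a' b g' n e j p hf hgr hg hgf hc hgc hs' hd' hj3 ha'h hb
    hdvd' hga hnorm' hg'h ht1 hgb hG'
  obtain ⟨m₀, hm₀⟩ := hn
  have hn' : n + 2 * j = 2 * (m₀ + j) + 1 := by omega
  rw [hn'] at hG2
  refine odd_theta_genus hM hdeg hs hsm (m := m₀ + j) (by omega) ht1 (hn' ▸ hg'h) hb
    (s := -a') ?_ ?_ (p := p + j * (j + n)) ?_ hG2
  · refine ⟨-g, ?_⟩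
    linear_combination -hnorm'
  · rintro z hz ⟨h1, h2, h3⟩
    obtain ⟨z', hz', r, hr, rfl⟩ := hS' z hz h2 h1
    have hsmul : ∀ {d : ℕ} {q : P3}, q.IsHomogeneous d → aeval (r • z') q = 0 → eval z' q = 0 := by
      intro d q hq h
      have h4 : aeval (r • z') q = r ^ d * aeval z' q := aeval_scale hq r z'
      rw [h4] at h
      rw [eval_eq_aeval]
      exact (mul_eq_zero.mp h).resolve_left (pow_ne_zero _ hr)
    have hz1 : z' ∈ S₁ := by
      rw [hS₁, Finset.mem_filter]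
      exact ⟨hz', hsmul hf h2, hsmul hb h1⟩
    rw [Polynomial.eval_prod, Finset.prod_ne_zero_iff] at ht2
    apply ht2 z' hz1
    have h4 := hsmul hg'h h3
    rw [hg'] at h4
    simp only [map_add, map_mul, map_pow, eval_C, map_ofNat] at h4
    simp only [R, Polynomial.eval_add, Polynomial.eval_mul, Polynomial.eval_C, Polynomial.eval_X,
      Polynomial.eval_pow]
    linear_combination h4
  · have h1 : Even (j * (j + n)) := by
      rcases Nat.even_or_odd j with h | h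
      · exact h.mul_right _
      · exact (h.add_odd ⟨m₀, hm₀⟩).mul_left _
    exact hp.add_even h1

end Vale.Agent.P287.H597
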