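import Vale.Agent.P287.H597.OddMain
import Vale.Agent.P287.H597.OddBlocks
import Vale.Agent.P287.H925V.Main

/-!
The odd theta theorem: the rational point of the second fibration, in the conventions of the block
of Verra fourfolds.
-/

namespace Vale.Agent.P287.H597

open Polynomial Matrix Module Vale.Agent.P287 Vale.Agent.P287.Theta Vale.Agent.P287.Odd

/-- The point of the second fibration. -/
theorem exists_point₃ (hT : StmtT) (hK : StmtK)
    {M : Matrix (Fin 4) (Fin 4) R3} (hM : M.IsSymm)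
    (hdeg : ∀ i j, (M i j).IsHomogeneous (1 + H925.wt i + H925.wt j)) {g : R3} {m : ℕ}
    {A : Matrix (Fin 3) (Fin 3) R3} {c c₁ : ℂ} {b : Fin 3 → R3}
    (D : H621.D1Data M.det g (M.adjugate 3 3) m A b c c₁) (hm : 2 ≤ m) (hgi : Irreducible g)
    (hgf : ¬ g ∣ M.det) (hgood : GoodRoot M.det g) (hev : EvenSections m g M.det) :
    ∃ (s : RatK) (t : Fin 3 → RatK), (t ≠ 0 ∨ s ≠ 0) ∧
      s ^ 2 = ∑ i, ∑ j, MvPolynomial.aeval t (A i j) * (tvec i * tvec j) := by
  have hf := D.hf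
  have hs := D.hs
  have hg := D.hg
  have hc := D.hc
  have hA := D.symm
  have hA2 := D.hA
  have hdet := D.hdet
  have hfi := irreducible_of_smooth hf (by norm_num) hs
  obtain ⟨e, s, c₀, hc₀, hd, hH⟩ := hgood
  have hgc : ¬ g ∣ c₀ := not_dvd_of_good hf (by norm_num) hg (by omega) hH
  obtain ⟨T, S, v, ν, dν, hTS, hv, hCu, hQu, hIso⟩ := hT m g M.det A c (by omega) hf hfi hs
    hg hgi hgf hA hA2 hc hdet
  obtain ⟨J, hJ, hHalf⟩ := stmtJ0 m g M.det T S v c hTS hv hc hm hf hs hg hgi hgf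
    ⟨e, s, c₀, hc₀, hgc, hd⟩ hCu
  have hk : 2 * m + 1 ≤ 2 * (m + 2) := by omega
  have hE := (H621.even_Yd_iff_frame hM hdeg D hm hTS hv rfl rfl rfl hCu hQu hHalf
    (fun a ha => (hJ a).2 ha) hk).2 (hev D.curvePair hk)
  -- the square root
  obtain ⟨r, hr⟩ := IsAlgClosed.exists_pow_nat_eq (-c) two_pos
  have hr0 : r ≠ 0 := by
    rintro rfl
    apply hc
    rw [← neg_eq_zero, ← hr]
    ring
  set g' : ℂ[X][X] := C (C v) * dh (sb T g) with hg'
  set f' : ℂ[X][X] := C (C (-c)) * dh (sb T M.det) with hf'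
  set A' : Matrix (Fin 3) (Fin 3) ℂ[X][X] := A.map fun P => dh (sb T P) with hA'
  set s₀ : ℂ[X][X] := C (C r) * dh (sb T s) with hs₀
  have hdiv : g' ∣ dh (sb T c₀) ^ 2 * f' - s₀ ^ 2 := by
    have h1 : dh (sb T c₀) ^ 2 * f' - s₀ ^ 2 =
        C (C (-c)) * (dh (sb T c₀) ^ 2 * dh (sb T M.det) - dh (sb T s) ^ 2) := by
      rw [hf', hs₀, mul_pow, ← C_pow, ← C_pow, hr]
      ring
    have h2 : dh (sb T g) ∣ dh (sb T c₀) ^ 2 * dh (sb T M.det) - dh (sb T s) ^ 2 := by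
      have := dh_dvd (map_dvd (sb T) hd)
      rwa [map_sub, map_mul, map_pow, map_pow, map_sub, map_mul, map_pow, map_pow] at this
    obtain ⟨q, hq⟩ := h2
    rw [h1, hq]
    refine ⟨C (C (v⁻¹)) * (C (C (-c)) * q), ?_⟩
    rw [hg']
    have h3 : (C (C v) * C (C (v⁻¹)) : ℂ[X][X]) = 1 := by
      rw [← C_mul, ← C_mul, mul_inv_cancel₀ hv, C_1, C_1]
    linear_combination (-(C (C (-c)) * (dh (sb T g) * q))) * h3
  have hs₀J : s₀ ∈ J := by
    rw [hJ]
    have h1 : s₀ ^ 2 = dh (sb T c₀) ^ 2 * f' - (dh (sb T c₀) ^ 2 * f' - s₀ ^ 2) := by ring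
    rw [h1]
    refine sub_mem (Ideal.mul_mem_left _ _ (Ideal.subset_span (Set.mem_insert _ _))) ?_
    exact Ideal.mem_of_dvd _ hdiv (Ideal.subset_span
      (Set.mem_insert_of_mem _ (Set.mem_singleton _)))
  -- the base change
  have hdivβ : β (dh (sb T c₀) ^ 2 * f' - s₀ ^ 2) = β (dh (sb T c₀)) ^ 2 * β f' - β s₀ ^ 2 := by
    rw [map_sub β, map_mul β (dh (sb T c₀) ^ 2) f', map_pow β, map_pow β]
  have hchar : CharZero RatK := charZero_of_injective_algebraMap (algebraMap ℂ RatK).injective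
  obtain ⟨E, _, _, φ, s', t', hfin, hodd, hφg, hs', ht'⟩ := hK RatK m (by omega) (β g') (β f')
    (A'.map β) (J.map β) tvec (β ∘ ν) dν (β s₀) (β (dh (sb T c₀))) (stmtBC.curve m g' f' hCu)
    (stmtBC.half m g' f' J hHalf) (stmtBC.quadrics g' f' A' hQu) hIso
    (Ideal.mem_map_of_mem _ hs₀J) (by
      rw [← hdivβ]
      exact map_dvd β hdiv) (by
      rw [stmtBC.finrank]
      exact hE)
  let : Algebra ℂ E := ((algebraMap RatK E).comp (algebraMap ℂ RatK)).toAlgebra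
  have : IsScalarTower ℂ RatK E := IsScalarTower.of_algebraMap_eq fun _ => rfl
  have hquad : φ (cx tvec ⬝ᵥ ((A'.map β) *ᵥ cx tvec)) =
      ∑ i, ∑ j, algebraMap RatK E (tvec i * tvec j) * MvPolynomial.aeval (pt T φ) (A i j) := by
    rw [bc_quad]
    simp only [aeval_pt]
    rfl
  have hcc : ∀ a : ℂ, φ (β (C (C a))) = algebraMap ℂ E a := by
    intro a
    rw [bc_CC, IsScalarTower.algebraMap_apply ℂ RatK E]
    exact φ.commutes (algebraMap ℂ RatK a)
  have hrE : algebraMap ℂ E r ≠ 0 := (_root_.map_ne_zero _).2 hr0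
  have hrE2 : algebraMap ℂ E r ^ 2 = algebraMap ℂ E (-c) := by rw [← map_pow, hr]
  obtain ⟨s'', t'', h1, h2⟩ := H69.point_of_residue A hA2 (g := g) (f := M.det) (c₀ := c₀)
    (n := 2 * m + 1) (d := 3) (e := e) hgi.prime hg hf hc₀ hgc hH hodd (pt T φ)
    (pt_ne_zero hTS φ) (by
      rw [aeval_pt]
      have h3 : φ (β g') = algebraMap ℂ E v * φ (β (dh (sb T g))) := by
        rw [hg', map_mul, map_mul, hcc]
      rw [hφg] at h3
      exact (mul_eq_zero.1 h3.symm).resolve_left ((_root_.map_ne_zero _).2 hv))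
    (s' / algebraMap ℂ E r) t' (by
      have h3 : φ (β f') = algebraMap ℂ E (-c) * MvPolynomial.aeval (pt T φ) M.det := by
        rw [hf', map_mul, map_mul, hcc, aeval_pt]
      rw [div_pow, hs', map_mul φ, hquad, h3, hrE2,
        div_eq_iff (by rw [← hrE2]; exact pow_ne_zero _ hrE)]
      ring) (by
      rw [ht', map_mul φ, hquad, map_pow φ, aeval_pt])
  exact ⟨s'', t'', h1, h2⟩

end Vale.Agent.P287.H597
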