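import Vale.Agent.P287.H597.OddPoint
import Vale.Agent.P287.H597.OddK
import Vale.Agent.P287.H631.OddN.Main
import Vale.Agent.P287.Odd.Mumford
import Vale.Agent.P287.H589.StmtJ
import Vale.Agent.P287.H589.StmtO

/-!
The odd theta theorem.
-/

namespace Vale.Agent.P287.H597

open MvPolynomial Matrix Module Vale.Agent.P287 Vale.Agent.P287.Theta Vale.Agent.P287.Odd
  Vale.Agent.P287.H925 Vale.Agent.P287.H925.NetResult

/-- The theorem over a field of characteristic zero. -/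
theorem stmtK_holds : StmtK := stmtK (H631.OddN.stmtN Odd.stmtM) H589.stmtJ H589.stmtO

/-- [C] helper925: the case of a section of degree `m + 3`. -/
def StmtConic : Prop := ∀ (M : Matrix (Fin 4) (Fin 4) (MvPolynomial (Fin 3) ℂ)), M.IsSymm →
  (∀ i j, (M i j).IsHomogeneous (1 + wt i + wt j)) → SmoothForm (cubicOf M) → SmoothP M.det →
  ∀ (g : P3) (m : ℕ), 1 ≤ m → Irreducible g → g.IsHomogeneous (2 * m + 1) → ¬ g ∣ M.det →
  (∃ (e : ℕ) (s c : P3), c.IsHomogeneous e ∧ ¬ g ∣ c ∧ g ∣ c ^ 2 * M.det - s ^ 2) →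
  ∀ b : P3, b.IsHomogeneous (m + 3) → b ^ 2 ∈ Ideal.span {M.adjugate 3 3 * g, M.det} →
  ¬ M.det ∣ b → RationalHypersurface (cubicOf M)

lemma not_dvd_det {f g : P3} {m : ℕ} (hf : f.IsHomogeneous 6) (hfi : Irreducible f)
    (hg : g.IsHomogeneous (2 * m + 1)) (hgi : Irreducible g) : ¬ g ∣ f := by
  rintro ⟨q, hq⟩
  rcases hfi.isUnit_or_isUnit hq with h | h
  · exact hgi.not_isUnit h
  · obtain ⟨q', hq'⟩ := h.exists_right_inv
    have hq0 : q ≠ 0 := h.ne_zero
    have hq0' : q' ≠ 0 := by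
      rintro rfl
      rw [mul_zero] at hq'
      exact zero_ne_one hq'
    have h1 := MvPolynomial.totalDegree_mul_of_isDomain hq0 hq0'
    rw [hq', MvPolynomial.totalDegree_one] at h1
    have h2 := MvPolynomial.totalDegree_mul_of_isDomain hgi.ne_zero hq0
    rw [← hq, hg.totalDegree hgi.ne_zero, hf.totalDegree hfi.ne_zero] at h2
    omega

variable {M : Matrix (Fin 4) (Fin 4) (MvPolynomial (Fin 3) ℂ)}

/-- **The odd theta theorem**, without sections of degree `m + 3`. -/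
theorem odd_theta_of₂ (hT : StmtT) (hM : M.IsSymm)
    (hdeg : ∀ i j, (M i j).IsHomogeneous (1 + wt i + wt j)) (hs : SmoothForm (cubicOf M))
    (hsm : SmoothP M.det) {g : P3} {m : ℕ} (hm : 2 ≤ m) (hg : Irreducible g)
    (hgr : g.IsHomogeneous (2 * m + 1)) (hgood : GoodRoot M.det g)
    (hev : EvenSections m g M.det)
    (hV : ∀ b : P3, b.IsHomogeneous (m + 3) →
      b ^ 2 ∈ Ideal.span {M.adjugate 3 3 * g, M.det} → M.det ∣ b) :
    RationalHypersurface (cubicOf M) := by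
  have hf := det_hom6 hdeg
  have hfi : Irreducible M.det := (prime_of_smoothP hf (by norm_num) hsm).irreducible
  have hgf := not_dvd_det hf hfi hgr hg
  obtain ⟨e, s, c₀, hc₀, hd, hH⟩ := hgood
  have hgc : ¬ g ∣ c₀ := not_dvd_of_good hf (by norm_num) hgr (by omega) hH
  rcases H925V.verra_or_rational hM hdeg hs hsm (by omega) hg hgr hgf
    ⟨e, s, c₀, hc₀, hgc, hd⟩ hV with h |
    ⟨A, c, c₁, b, hc, hc₁, hA, hA2, hdet, hδ0, hb, hbb, hb0, φ, hφ⟩
  · exact h
  · have D : H621.D1Data M.det g (M.adjugate 3 3) m A b c c₁ :=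
      ⟨hf, hsm, hgr, fun h => hgf (hfi.associated_of_dvd hg h).symm.dvd, adj_hom3 hdeg, hδ0, hA,
        hA2, hdet, hc, hb, hbb, hc₁, hb0⟩
    obtain ⟨s', t', hts, hpt⟩ := exists_point₃ hT stmtK_holds hM hdeg D hm hg hgf
      ⟨e, s, c₀, hc₀, hd, hH⟩ hev
    refine H69.rational_of_verra_equiv M hdeg hs A (fun i j => hA.apply j i) hA2 ?_ _ φ
      hφ t' s' hts hpt
    intro z hz
    apply hsm z
    intro i
    have h1 := hz i
    rw [hdet, Derivation.leibniz, pderiv_C, smul_zero, add_zero, smul_eq_mul, map_mul,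
      aeval_C] at h1
    have h2 := (mul_eq_zero.1 h1).resolve_left (by simpa using hc)
    rwa [eval_eq_aeval]

/-- **The odd theta theorem.** -/
theorem odd_theta_of₃ (hT : StmtT) (hC : StmtConic) (hM : M.IsSymm)
    (hdeg : ∀ i j, (M i j).IsHomogeneous (1 + wt i + wt j)) (hs : SmoothForm (cubicOf M))
    (hsm : SmoothP M.det) {g : P3} {m : ℕ} (hm : 2 ≤ m) (hg : Irreducible g)
    (hgr : g.IsHomogeneous (2 * m + 1)) (hgood : GoodRoot M.det g)
    (hev : EvenSections m g M.det) : RationalHypersurface (cubicOf M) := by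
  by_cases hV : ∀ b : P3, b.IsHomogeneous (m + 3) →
      b ^ 2 ∈ Ideal.span {M.adjugate 3 3 * g, M.det} → M.det ∣ b
  · exact odd_theta_of₂ hT hM hdeg hs hsm hm hg hgr hgood hev hV
  · push Not at hV
    obtain ⟨b, hb, hb2, hbf⟩ := hV
    have hf := det_hom6 hdeg
    have hfi : Irreducible M.det := (prime_of_smoothP hf (by norm_num) hsm).irreducible
    obtain ⟨e, s, c₀, hc₀, hd, hH⟩ := hgood
    exact hC M hM hdeg hs hsm g m (by omega) hg hgr (not_dvd_det hf hfi hgr hg)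
      ⟨e, s, c₀, hc₀, not_dvd_of_good hf (by norm_num) hgr (by omega) hH, hd⟩ b hb hb2 hbf

end Vale.Agent.P287.H597
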