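import Vale.Agent.P287.Theta.PencilAlg

/-!
Specialisation of absolutely irreducible forms in three variables over a domain: if `G` is a form
over the domain `R` which is irreducible over an algebraically closed field containing `R`, then
`G` stays irreducible under all ring maps from `R` to fields which do not kill a suitable nonzero
element of `R`.
-/

namespace Vale.Agent.P287.H597

open MvPolynomial

section Special

/-- The exponents of the monomials of degree `a`. -/
abbrev Ex (a : ℕ) : Type := {u : Fin 3 →₀ ℕ // u ∈ Finset.finsuppAntidiag Finset.univ a}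

lemma ex_degree {a : ℕ} (u : Ex a) : (u : Fin 3 →₀ ℕ).degree = a := by
  have h := u.2
  rw [Finset.mem_finsuppAntidiag] at h
  rw [Finsupp.degree_eq_sum]
  exact h.1

/-- The form with given coefficients. -/
noncomputable def formOf {A : Type*} [CommSemiring A] (a : ℕ) (x : Ex a → A) :
    MvPolynomial (Fin 3) A := ∑ u : Ex a, monomial (u : Fin 3 →₀ ℕ) (x u)

lemma formOf_homog {A : Type*} [CommSemiring A] (a : ℕ) (x : Ex a → A) :
    (formOf a x).IsHomogeneous a :=
  IsHomogeneous.sum _ _ _ fun u _ => isHomogeneous_monomial _ (ex_degree u)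

lemma map_formOf {A B : Type*} [CommSemiring A] [CommSemiring B] (φ : A →+* B) (a : ℕ)
    (x : Ex a → A) : map φ (formOf a x) = formOf a (φ ∘ x) := by
  rw [formOf, formOf, map_sum]
  exact Finset.sum_congr rfl fun u _ => map_monomial _ _ _

lemma exists_formOf {A : Type*} [CommSemiring A] {a : ℕ} {P : MvPolynomial (Fin 3) A}
    (hP : P.IsHomogeneous a) : P = formOf a fun u => P.coeff u := by
  classical
  ext v
  rw [formOf, coeff_sum]
  simp only [coeff_monomial]
  by_cases hv : v.degree = a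
  · have hv' : v ∈ Finset.finsuppAntidiag (Finset.univ : Finset (Fin 3)) a := by
      rw [Finset.mem_finsuppAntidiag]
      refine ⟨?_, Finset.subset_univ _⟩
      rw [← hv, Finsupp.degree_eq_sum]
    rw [Finset.sum_eq_single (⟨v, hv'⟩ : Ex a)]
    · rw [if_pos rfl]
    · intro u _ hu
      rw [if_neg]
      intro h
      exact hu (Subtype.ext h)
    · intro h
      exact absurd (Finset.mem_univ _) h
  · rw [hP.coeff_eq_zero hv]
    symm
    refine Finset.sum_eq_zero fun u _ => ?_
    rw [if_neg]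
    intro h
    exact hv (h ▸ ex_degree u)

variable {R : Type*} [CommRing R]

/-- The equation `G = A B` for the unknown coefficients of two forms. -/
noncomputable def eqn (G : MvPolynomial (Fin 3) R) (a b : ℕ) :
    MvPolynomial (Fin 3) (MvPolynomial (Ex a ⊕ Ex b) R) :=
  map C G - formOf a (fun u => X (Sum.inl u)) * formOf b (fun v => X (Sum.inr v))

/-- The ideal of the equation `G = A B`. -/
noncomputable def eqIdeal (G : MvPolynomial (Fin 3) R) (a b : ℕ) :
    Ideal (MvPolynomial (Ex a ⊕ Ex b) R) :=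
  Ideal.span (Set.range fun e => (eqn G a b).coeff e)

lemma solution {A : Type*} [CommRing A] (G : MvPolynomial (Fin 3) R) (a b : ℕ)
    (φ : MvPolynomial (Ex a ⊕ Ex b) R →+* A) (h : eqIdeal G a b ≤ RingHom.ker φ) :
    ∃ P Q : MvPolynomial (Fin 3) A, P.IsHomogeneous a ∧ Q.IsHomogeneous b ∧
      map (φ.comp C) G = P * Q := by
  refine ⟨map φ (formOf a fun u => X (Sum.inl u)), map φ (formOf b fun v => X (Sum.inr v)),
    (formOf_homog _ _).map φ, (formOf_homog _ _).map φ, ?_⟩
  have h1 : map φ (eqn G a b) = 0 := by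
    ext e
    rw [coeff_map, coeff_zero]
    exact h (Ideal.subset_span ⟨e, rfl⟩)
  rw [eqn, map_sub, map_mul, sub_eq_zero, map_map] at h1
  exact h1

lemma ideal_le_ker {A : Type*} [CommRing A] {G : MvPolynomial (Fin 3) R} {a b : ℕ}
    (ev : R →+* A) {P Q : MvPolynomial (Fin 3) A} (hP : P.IsHomogeneous a)
    (hQ : Q.IsHomogeneous b) (h : map ev G = P * Q) :
    eqIdeal G a b ≤ RingHom.ker (eval₂Hom ev
      (Sum.elim (fun u : Ex a => P.coeff u) (fun v : Ex b => Q.coeff v))) := by
  rw [eqIdeal, Ideal.span_le]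
  rintro _ ⟨e, rfl⟩
  rw [SetLike.mem_coe, RingHom.mem_ker]
  obtain ⟨φ, hφ⟩ : ∃ φ, φ = eval₂Hom ev
      (Sum.elim (fun u : Ex a => P.coeff u) (fun v : Ex b => Q.coeff v)) := ⟨_, rfl⟩
  rw [← hφ]
  have h1 : map φ (eqn G a b) = 0 := by
    rw [eqn, map_sub, map_mul, map_map, map_formOf, map_formOf]
    have h2 : φ.comp C = ev := by
      rw [hφ]
      exact eval₂Hom_comp_C _ _
    have h3 : (φ ∘ fun u : Ex a => (X (Sum.inl u) : MvPolynomial (Ex a ⊕ Ex b) R)) =
        fun u : Ex a => P.coeff u := by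
      funext u
      rw [Function.comp_apply, hφ, coe_eval₂Hom, eval₂_X]
      rfl
    have h4 : (φ ∘ fun v : Ex b => (X (Sum.inr v) : MvPolynomial (Ex a ⊕ Ex b) R)) =
        fun v : Ex b => Q.coeff v := by
      funext v
      rw [Function.comp_apply, hφ, coe_eval₂Hom, eval₂_X]
      rfl
    rw [h2, h3, h4, ← exists_formOf hP, ← exists_formOf hQ, h, sub_self]
  rw [← coeff_map, h1, coeff_zero]

/-- A field which is finitely generated as an algebra has a point over an algebraically closed
extension. -/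
lemma exists_algHom (F : Type*) [Field F] (E : Type*) [Field E] [IsAlgClosed E] [Algebra F E]
    (κ : Type*) [Field κ] [Algebra F κ] [Algebra.FiniteType F κ] : Nonempty (κ →ₐ[F] E) := by
  have : Module.Finite F κ := finite_of_finite_type_of_isJacobsonRing F κ
  exact ⟨IsAlgClosed.lift⟩

/-- An ideal of `R[x]` without points over `E` contains a nonzero element of `R`. -/
lemma exists_mem_of_no_point [IsDomain R] {E : Type*} [Field E] [IsAlgClosed E] [Algebra R E]
    (hinj : Function.Injective (algebraMap R E)) {σ : Type*} [Finite σ]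
    (J : Ideal (MvPolynomial σ R))
    (h : ∀ φ : MvPolynomial σ R →ₐ[R] E, ¬ J ≤ RingHom.ker φ) :
    ∃ d : R, d ≠ 0 ∧ C d ∈ J := by
  by_contra hcon
  push Not at hcon
  let F := FractionRing R
  let _ : Algebra (MvPolynomial σ R) (MvPolynomial σ F) := MvPolynomial.algebraMvPolynomial
  have : FaithfulSMul R E := (faithfulSMul_iff_algebraMap_injective R E).mpr hinj
  let _ : Algebra F E := FractionRing.liftAlgebra R E
  have hne : J.map (algebraMap (MvPolynomial σ R) (MvPolynomial σ F)) ≠ ⊤ := by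
    rw [IsLocalization.map_algebraMap_ne_top_iff_disjoint ((nonZeroDivisors R).map (C (σ := σ)))]
    rw [Set.disjoint_left]
    rintro _ ⟨d, hd, rfl⟩ hdJ
    exact hcon d (nonZeroDivisors.ne_zero hd) hdJ
  obtain ⟨m, hm, hJm⟩ := Ideal.exists_le_maximal _ hne
  let _ : Field (MvPolynomial σ F ⧸ m) := Ideal.Quotient.field m
  obtain ⟨ψ⟩ := exists_algHom F E (MvPolynomial σ F ⧸ m)
  let φ : MvPolynomial σ R →ₐ[R] E :=
    ((ψ.comp (Ideal.Quotient.mkₐ F m)).restrictScalars R).comp
      (MvPolynomial.mapAlgHom (Algebra.ofId R F))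
  apply h φ
  intro x hx
  rw [RingHom.mem_ker]
  change ψ (Ideal.Quotient.mk m (map (algebraMap R F) x)) = 0
  have h1 : map (algebraMap R F) x ∈ m := hJm (Ideal.mem_map_of_mem _ hx)
  rw [Ideal.Quotient.eq_zero_iff_mem.mpr h1, map_zero]

theorem exists_no_factor [IsDomain R] {E : Type*} [Field E] [IsAlgClosed E] [Algebra R E]
    (hinj : Function.Injective (algebraMap R E)) (G : MvPolynomial (Fin 3) R) (a b : ℕ)
    (h : ¬ ∃ P Q : MvPolynomial (Fin 3) E, P.IsHomogeneous a ∧ Q.IsHomogeneous b ∧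
      map (algebraMap R E) G = P * Q) :
    ∃ d : R, d ≠ 0 ∧ ∀ {k : Type*} [Field k] (ev : R →+* k), ev d ≠ 0 →
      ¬ ∃ P Q : MvPolynomial (Fin 3) k, P.IsHomogeneous a ∧ Q.IsHomogeneous b ∧
        map ev G = P * Q := by
  obtain ⟨d, hd, hdJ⟩ := exists_mem_of_no_point hinj (eqIdeal G a b) (fun φ hφ => by
    apply h
    obtain ⟨P, Q, hP, hQ, h1⟩ := solution G a b (φ : MvPolynomial (Ex a ⊕ Ex b) R →+* E) hφ
    refine ⟨P, Q, hP, hQ, ?_⟩
    rw [← h1]
    have h2 : (φ : MvPolynomial (Ex a ⊕ Ex b) R →+* E).comp C = algebraMap R E :=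
      RingHom.ext fun r => φ.commutes r
    rw [h2])
  refine ⟨d, hd, ?_⟩
  rintro k _ ev hev ⟨P, Q, hP, hQ, h1⟩
  apply hev
  have h2 := ideal_le_ker ev hP hQ h1 hdJ
  rw [RingHom.mem_ker, coe_eval₂Hom, eval₂_C] at h2
  exact h2

/-- **Specialisation** of absolutely irreducible forms. -/
theorem specialise.{u} [IsDomain R] {E : Type*} [Field E] [IsAlgClosed E] [Algebra R E]
    (hinj : Function.Injective (algebraMap R E)) {G : MvPolynomial (Fin 3) R} {n : ℕ}
    (hG : G.IsHomogeneous n) (hirr : Irreducible (map (algebraMap R E) G)) :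
    ∃ d : R, d ≠ 0 ∧ ∀ {k : Type u} [Field k] (ev : R →+* k), ev d ≠ 0 →
      Irreducible (map ev G) := by
  classical
  have hG0 : G ≠ 0 := by
    rintro rfl
    rw [map_zero] at hirr
    exact not_irreducible_zero hirr
  obtain ⟨u, hu⟩ := ne_zero_iff.mp hG0
  have hno : ∀ i ∈ Finset.Ioo 0 n, ∃ d : R, d ≠ 0 ∧ ∀ {k : Type u} [Field k] (ev : R →+* k),
      ev d ≠ 0 → ¬ ∃ P Q : MvPolynomial (Fin 3) k, P.IsHomogeneous i ∧ Q.IsHomogeneous (n - i) ∧
        map ev G = P * Q := by
    intro i hi
    rw [Finset.mem_Ioo] at hi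
    refine exists_no_factor hinj G i (n - i) ?_
    rintro ⟨P, Q, hP, hQ, h⟩
    have h0 : P * Q ≠ 0 := h ▸ hirr.ne_zero
    rcases hirr.isUnit_or_isUnit h with h1 | h1
    · obtain ⟨c, hc, hc'⟩ := Theta.exists_C_of_isUnit h1
      have h2 : P.IsHomogeneous 0 := by
        rw [hc']
        exact isHomogeneous_C _ _
      have := hP.inj_right h2 (left_ne_zero_of_mul h0)
      omega
    · obtain ⟨c, hc, hc'⟩ := Theta.exists_C_of_isUnit h1
      have h2 : Q.IsHomogeneous 0 := by
        rw [hc']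
        exact isHomogeneous_C _ _
      have := hQ.inj_right h2 (right_ne_zero_of_mul h0)
      omega
  choose! d hd using hno
  refine ⟨G.coeff u * ∏ i ∈ Finset.Ioo 0 n, d i,
    mul_ne_zero hu (Finset.prod_ne_zero_iff.mpr fun i hi => (hd i hi).1), ?_⟩
  intro k _ ev hev
  rw [map_mul, map_prod] at hev
  have hG1 : map ev G ≠ 0 := by
    intro h
    have h1 := congrArg (coeff u) h
    rw [coeff_map, coeff_zero] at h1
    exact left_ne_zero_of_mul hev h1
  have hGk : (map ev G).IsHomogeneous n := hG.map ev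
  have hn : n ≠ 0 := by
    rintro rfl
    have h1 := hG.map (algebraMap R E)
    rw [← totalDegree_zero_iff_isHomogeneous, totalDegree_eq_zero_iff_eq_C] at h1
    rw [h1] at hirr
    refine hirr.not_isUnit ((isUnit_iff_ne_zero.mpr ?_).map C)
    intro h2
    rw [h2, map_zero] at hirr
    exact not_irreducible_zero hirr
  refine ⟨?_, ?_⟩
  · intro h
    obtain ⟨c, hc, hc'⟩ := Theta.exists_C_of_isUnit h
    have h2 : (map ev G).IsHomogeneous 0 := by
      rw [hc']
      exact isHomogeneous_C _ _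
    exact hn (hGk.inj_right h2 hG1)
  · intro P Q hPQ
    have h0 : P * Q ≠ 0 := hPQ ▸ hG1
    obtain ⟨i, hi⟩ := Theta.homog_of_mul (a := P) (b := Q) (by rwa [← hPQ]) h0
    obtain ⟨j, hj, hQ⟩ := Theta.degree_le_of_mul (a := P) (b := Q) hi (by rwa [← hPQ]) h0
    have hunit : ∀ (A : MvPolynomial (Fin 3) k), A ≠ 0 → A.IsHomogeneous 0 → IsUnit A := by
      intro A hA h
      rw [← totalDegree_zero_iff_isHomogeneous, totalDegree_eq_zero_iff_eq_C] at h
      rw [h]
      refine (isUnit_iff_ne_zero.mpr ?_).map C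
      intro h2
      rw [h2, map_zero] at h
      exact hA h
    by_cases hi0 : i = 0
    · subst hi0
      exact Or.inl (hunit P (left_ne_zero_of_mul h0) hi)
    by_cases hj0 : j = 0
    · subst hj0
      exact Or.inr (hunit Q (right_ne_zero_of_mul h0) hQ)
    exfalso
    have hmem : i ∈ Finset.Ioo 0 n := by
      rw [Finset.mem_Ioo]
      omega
    have e1 : n - i = j := by omega
    refine (hd i hmem).2 ev ?_ ⟨P, Q, hi, by rw [e1]; exact hQ, hPQ⟩
    exact Finset.prod_ne_zero_iff.mp (right_ne_zero_of_mul hev) i hmem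

end Special

end Vale.Agent.P287.H597
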